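import Vale.Agent.P205.Assembly.MForm
import Mathlib.Analysis.Calculus.InverseFunctionTheorem.ContDiff
import Mathlib.LinearAlgebra.FiniteDimensional.Basic

/-!
A chart near a regular point of a function in which the function depends on the first coordinate
only and a given positive tensor is diagonal at the centre.
-/

noncomputable section

open Set Metric Filter
open scoped ContDiff Manifold Topology

namespace Vale.Agent.P205

namespace Adapted

@[simp] theorem pt_zero (a b : ℝ) : pt a b 0 = a := by simp [pt]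

@[simp] theorem pt_one (a b : ℝ) : pt a b 1 = b := by simp [pt]

/-- The linear map with given columns. -/
def lin (u w : R2) : R2 →L[ℝ] R2 :=
  (EuclideanSpace.proj (0 : Fin 2)).smulRight u + (EuclideanSpace.proj (1 : Fin 2)).smulRight w

theorem lin_apply (u w z : R2) : lin u w z = z 0 • u + z 1 • w := by simp [lin]

theorem exists_frame (B : R2 →L[ℝ] R2 →L[ℝ] ℝ)
    (hp : ∀ v, v ≠ 0 → 0 < B v v) (L : R2 →L[ℝ] ℝ) (hL : L ≠ 0) :
    ∃ (u w : R2) (J : R2 ≃L[ℝ] R2), (∀ z, J z = z 0 • u + z 1 • w) ∧ L w = 0 ∧ L u ≠ 0 ∧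
      B u u = 1 ∧ B u w = 0 ∧ B w w = 1 / 2 := by
  obtain ⟨w₀, hw₀, hLw⟩ : ∃ w : R2, w ≠ 0 ∧ L w = 0 := by
    by_cases h : L (pt 1 0) = 0
    · exact ⟨pt 1 0, fun e => by simpa using congrArg (fun x : R2 => x 0) e, h⟩
    · refine ⟨pt (-(L (pt 0 1))) (L (pt 1 0)),
        fun e => h (by simpa using congrArg (fun x : R2 => x 1) e), ?_⟩
      have e : pt (-(L (pt 0 1))) (L (pt 1 0)) =
          (-(L (pt 0 1))) • pt 1 0 + L (pt 1 0) • pt 0 1 := by
        ext i; fin_cases i <;> simp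
      rw [e, map_add, map_smul, map_smul, smul_eq_mul, smul_eq_mul]
      ring
  obtain ⟨x, hx⟩ : ∃ x, L x ≠ 0 := by
    by_contra h
    push Not at h
    exact hL (ContinuousLinearMap.ext fun x => by simp [h x])
  have hbw := hp _ hw₀
  set u₀ := x - (B x w₀ / B w₀ w₀) • w₀ with hu₀
  have hLu : L u₀ ≠ 0 := by simpa [hu₀, hLw] using hx
  have hu0 : u₀ ≠ 0 := fun e => hLu (by simp [e])
  have hbu := hp _ hu0
  have horth : B u₀ w₀ = 0 := by
    simp [hu₀]
    field_simp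
    ring
  set u := (√(B u₀ u₀))⁻¹ • u₀ with hu
  set w := (√(2 * B w₀ w₀))⁻¹ • w₀ with hw
  have hsu : 0 < √(B u₀ u₀) := Real.sqrt_pos.2 hbu
  have hsw : 0 < √(2 * B w₀ w₀) := Real.sqrt_pos.2 (by linarith)
  have hLu' : L u ≠ 0 := by simp [hu, hLu, hsu.ne']
  have hLw' : L w = 0 := by simp [hw, hLw]
  have hw0 : w ≠ 0 := smul_ne_zero (inv_ne_zero hsw.ne') hw₀
  have hinj : Function.Injective (lin u w : R2 →ₗ[ℝ] R2) := by
    rw [← LinearMap.ker_eq_bot, LinearMap.ker_eq_bot']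
    intro z hz
    simp only [ContinuousLinearMap.coe_coe, lin_apply] at hz
    have h0 : z 0 = 0 := by
      have := congrArg L hz
      simpa [hLw', hLu'] using this
    have h1 : z 1 = 0 := by
      rw [h0, zero_smul, zero_add] at hz
      exact (smul_eq_zero.1 hz).resolve_right hw0
    ext i; fin_cases i <;> simp [h0, h1]
  refine ⟨u, w, (LinearEquiv.ofInjectiveEndo _ hinj).toContinuousLinearEquiv,
    fun z => lin_apply u w z, hLw', hLu', ?_, ?_, ?_⟩
  · simp only [hu, map_smul, _root_.smul_apply, smul_eq_mul]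
    have h2 := Real.mul_self_sqrt hbu.le
    field_simp
    linarith
  · simp [hu, hw, horth]
  · simp only [hw, map_smul, _root_.smul_apply, smul_eq_mul]
    have h2 := Real.mul_self_sqrt (by linarith : 0 ≤ 2 * B w₀ w₀)
    field_simp
    linarith

end Adapted

open Adapted

variable {M : Type} [TopologicalSpace M] [ChartedSpace R2 M] [IsManifold 𝓘(ℝ, R2) ∞ M]

/-- Near a noncritical point of `h` there is a chart in which `h` is a function of `x` only and
a given positive tensor is `(1, 0, 1/2)` at the point. -/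
theorem adapted_chart (h : M → ℝ) (hh : ContMDiff 𝓘(ℝ, R2) 𝓘(ℝ) ∞ h) (p : M)
    (hp : mfderiv 𝓘(ℝ, R2) 𝓘(ℝ) h p ≠ 0) (H : MForm M)
    (_hsym : ∀ v w, H p v w = H p w v) (hpos : ∀ v, v ≠ 0 → 0 < H p v v)
    {U : Set M} (hU : IsOpen U) (hpU : p ∈ U) :
    ∃ (ψ : R2 → M) (q : M → R2) (s : Set M) (c : ℝ), IsOpen s ∧ p ∈ s ∧ s ⊆ U ∧ c ≠ 0 ∧
      ContMDiffOn 𝓘(ℝ, R2) 𝓘(ℝ, R2) ∞ ψ (ball 0 3) ∧ MapsTo ψ (ball 0 3) s ∧
      MapsTo q s (ball 0 3) ∧ ContMDiffOn 𝓘(ℝ, R2) 𝓘(ℝ, R2) ∞ q s ∧ q p = 0 ∧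
      (∀ z ∈ ball (0 : R2) 3, q (ψ z) = z ∧ h (ψ z) = h p + c * z 0) ∧
      (∀ y ∈ s, ψ (q y) = y) ∧
      ∃ d : ℝ, 0 < d ∧ chartForm H ψ 0 = d • ![1, 0, 1 / 2] := by
  set e := extChartAt 𝓘(ℝ, R2) p with he
  set x₀ := e p with hx₀
  have hx₀t : x₀ ∈ e.target := mem_extChartAt_target p
  have htO : IsOpen e.target := isOpen_extChartAt_target p
  have hes : e.symm x₀ = p := e.left_inv (mem_extChartAt_source p)
  have hsymm : ContMDiffOn 𝓘(ℝ, R2) 𝓘(ℝ, R2) ∞ e.symm e.target := contMDiffOn_extChartAt_symm p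
  set f : R2 → ℝ := fun x => h (e.symm x) with hfdef
  have hfs : ContDiffOn ℝ ∞ f e.target := (hh.comp_contMDiffOn hsymm).contDiffOn
  set L := fderiv ℝ f x₀ with hLdef
  have hL : L ≠ 0 := by
    intro h0
    apply hp
    rw [(hh.mdifferentiableAt (by simp) : MDifferentiableAt 𝓘(ℝ, R2) 𝓘(ℝ) h p).mfderiv]
    simpa [writtenInExtChartAt, fderivWithin_univ] using! h0
  -- the tensor at the centre in the coordinates
  set E : R2 →L[ℝ] R2 := mfderiv 𝓘(ℝ, R2) 𝓘(ℝ, R2) e.symm x₀ with hE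
  have hEinj : Function.Injective E := by
    have hi := isInvertible_mfderivWithin_extChartAt_symm (I := 𝓘(ℝ, R2)) hx₀t
    rw [ModelWithCorners.range_eq_univ, mfderivWithin_univ] at hi
    exact hi.injective
  let G : M → (R2 →L[ℝ] R2 →L[ℝ] ℝ) := fun y => H y
  set B : R2 →L[ℝ] R2 →L[ℝ] ℝ := (G p).bilinearComp E E with hB
  have hBp : ∀ v, v ≠ 0 → 0 < B v v := fun v hv => hpos (E v) fun h0 =>
    hv (hEinj (h0.trans (map_zero E).symm))
  obtain ⟨u, w, J, hJ, hLw, hLu, huu, huw, hww⟩ :=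
    exists_frame B hBp L hL
  -- the coordinates
  set Φ : R2 → R2 := fun x =>
    ((f x - f x₀) / L u) • pt 1 0 + (J.symm (x - x₀) 1) • pt 0 1 with hΦ
  set l : R2 →L[ℝ] ℝ := (EuclideanSpace.proj (1 : Fin 2)).comp (J.symm : R2 →L[ℝ] R2) with hl
  have hΦeq : Φ = fun x => ((f x - f x₀) / L u) • pt 1 0 + (l (x - x₀)) • pt 0 1 := rfl
  have hΦs : ContDiffOn ℝ ∞ Φ e.target := by
    rw [hΦeq]
    exact (((hfs.sub contDiffOn_const).div_const _).smul contDiffOn_const).add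
      ((l.contDiff.comp (contDiff_id.sub contDiff_const)).contDiffOn.smul contDiffOn_const)
  have hΦat : ∀ x ∈ e.target, ContDiffAt ℝ ∞ Φ x := fun x hx =>
    hΦs.contDiffAt (htO.mem_nhds hx)
  have hd : HasFDerivAt Φ (J.symm : R2 →L[ℝ] R2) x₀ := by
    have h1 : HasFDerivAt f L x₀ :=
      ((hfs.differentiableOn (by simp)).differentiableAt (htO.mem_nhds hx₀t)).hasFDerivAt
    have h2 : HasFDerivAt (fun x => (f x - f x₀) / L u) ((L u)⁻¹ • L) x₀ := by
      simpa [div_eq_mul_inv] using! (h1.sub_const (f x₀)).mul_const (L u)⁻¹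
    have h3 : HasFDerivAt (fun x => l (x - x₀)) l x₀ := by
      exact (l.hasFDerivAt.comp x₀ ((hasFDerivAt_id x₀).sub_const x₀)).congr_fderiv (by simp)
    have key : ∀ v, L v = J.symm v 0 * L u := fun v => by
      conv_lhs => rw [← J.apply_symm_apply v, hJ]
      simp [hLw]
    rw [hΦeq]
    refine ((h2.smul_const (pt 1 0)).add (h3.smul_const (pt 0 1))).congr_fderiv ?_
    ext v i
    fin_cases i <;> simp [hl, key v]
    field_simp
  set P := (hΦat x₀ hx₀t).toOpenPartialHomeomorph Φ hd (by simp) with hP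
  have hPc : (P : R2 → R2) = Φ := rfl
  have hPx : x₀ ∈ P.source := (hΦat x₀ hx₀t).mem_toOpenPartialHomeomorph_source hd (by simp)
  have hΦ0 : Φ x₀ = 0 := by simp [hΦ]
  set W := {x ∈ e.target | fderiv ℝ Φ x ∈
    range ((↑) : (R2 ≃L[ℝ] R2) → R2 →L[ℝ] R2)} ∩ P.source ∩ {x ∈ e.target | e.symm x ∈ U}
    with hW
  have hWo : IsOpen W :=
    (((hΦs.continuousOn_fderiv_of_isOpen htO (by simp)).isOpen_inter_preimage htO
      ContinuousLinearEquiv.isOpen).inter P.open_source).inter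
      (hsymm.continuousOn.isOpen_inter_preimage htO hU)
  have hWx : x₀ ∈ W := ⟨⟨⟨hx₀t, ⟨J.symm, hd.fderiv.symm⟩⟩, hPx⟩, hx₀t, by rwa [hes]⟩
  have hV : IsOpen (P '' W) := P.isOpen_image_of_subset_source hWo fun x hx => hx.1.2
  obtain ⟨ε, hε, hεV⟩ := Metric.isOpen_iff.1 hV 0 ⟨x₀, hWx, hΦ0⟩
  set r := ε / 3 with hr
  have hr0 : 0 < r := by positivity
  have hz3 : ∀ z ∈ ball (0 : R2) 3, r • z ∈ ball (0 : R2) ε := fun z hz => by
    rw [mem_ball_zero_iff] at hz ⊢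
    rw [norm_smul, Real.norm_of_nonneg hr0.le, hr]
    nlinarith [norm_nonneg z]
  have hinv : ∀ z ∈ ball (0 : R2) 3, P.symm (r • z) ∈ W ∧ Φ (P.symm (r • z)) = r • z := by
    intro z hz
    obtain ⟨x, hx, hxz⟩ := hεV (hz3 z hz)
    rw [← hxz, P.left_inv hx.1.2]
    exact ⟨hx, rfl⟩
  set ψ : R2 → M := fun z => e.symm (P.symm (r • z)) with hψ
  set q : M → R2 := fun y => r⁻¹ • Φ (e y) with hq
  set s := e.source ∩ e ⁻¹' (W ∩ Φ ⁻¹' ball 0 ε) with hs
  have hso : IsOpen s := by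
    refine (continuousOn_extChartAt p).isOpen_inter_preimage (isOpen_extChartAt_source p) ?_
    exact (hΦs.continuousOn.mono fun x hx => hx.2.1).isOpen_inter_preimage hWo isOpen_ball
  have hqsm : ContMDiffOn 𝓘(ℝ, R2) 𝓘(ℝ, R2) ∞ q s :=
    (hΦs.const_smul r⁻¹).contMDiffOn.comp
      ((contMDiffOn_extChartAt (x := p)).mono fun y hy => by
        rw [← extChartAt_source 𝓘(ℝ, R2)]; exact hy.1)
      fun y hy => hy.2.1.2.1
  have hPsymm : ∀ z ∈ ball (0 : R2) 3, ContDiffAt ℝ ∞ P.symm (r • z) := fun z hz => by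
    obtain ⟨x, hx, hxz⟩ := hεV (hz3 z hz)
    obtain ⟨⟨⟨hxt, e', he'⟩, hxs⟩, -⟩ := hx
    rw [← hxz]
    refine P.contDiffAt_symm (f₀' := e') (P.map_source hxs) ?_ ?_
    · rw [P.left_inv hxs, hPc, he']
      exact ((hΦat x hxt).differentiableAt (by simp)).hasFDerivAt
    · rw [P.left_inv hxs]
      exact hΦat x hxt
  have hφ : ContDiffOn ℝ ∞ (fun z => P.symm (r • z)) (ball (0 : R2) 3) := fun z hz =>
    ((hPsymm z hz).comp z (contDiff_id.const_smul r).contDiffAt).contDiffWithinAt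
  have hψsm : ContMDiffOn 𝓘(ℝ, R2) 𝓘(ℝ, R2) ∞ ψ (ball 0 3) :=
    hsymm.comp hφ.contMDiffOn fun z hz => (hinv z hz).1.2.1
  have hψs : MapsTo ψ (ball 0 3) s := fun z hz => by
    obtain ⟨hW', hΦz⟩ := hinv z hz
    refine ⟨e.map_target hW'.2.1, ?_⟩
    rw [mem_preimage, hψ, e.right_inv hW'.2.1]
    exact ⟨hW', by rw [mem_preimage, hΦz]; exact hz3 z hz⟩
  have hps : p ∈ s :=
    ⟨mem_extChartAt_source p, hWx, by rw [mem_preimage, ← hx₀, hΦ0]; exact mem_ball_self hε⟩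
  refine ⟨ψ, q, s, r * L u, hso, hps, ?_, mul_ne_zero hr0.ne' hLu, hψsm, hψs, ?_, hqsm,
    by simp [hq, ← hx₀, hΦ0], fun z hz => ?_, fun y hy => ?_, r ^ 2, by positivity, ?_⟩
  · intro y hy
    have := hy.2.1.2.2
    rwa [e.left_inv hy.1] at this
  · intro y hy
    have h1 : ‖Φ (e y)‖ < ε := mem_ball_zero_iff.1 hy.2.2
    rw [mem_ball_zero_iff, hq, norm_smul, norm_inv, Real.norm_of_nonneg hr0.le,
      inv_mul_lt_iff₀ hr0, hr]
    linarith
  · obtain ⟨hW', hΦz⟩ := hinv z hz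
    refine ⟨?_, ?_⟩
    · simp only [hq, hψ]
      rw [e.right_inv hW'.2.1, hΦz, inv_smul_smul₀ hr0.ne']
    · have := congrArg (fun x : R2 => x 0) hΦz
      simp only [hΦ] at this
      simp [div_eq_iff hLu] at this
      have h0 : f x₀ = h p := by simp only [hfdef]; rw [hes]
      change f (P.symm (r • z)) = _
      linarith
  · simp only [hψ, hq, smul_inv_smul₀ hr0.ne']
    rw [← hPc, P.left_inv hy.2.1.1.2, e.left_inv hy.1]
  · have hP0 : P.symm 0 = x₀ := by rw [← hΦ0, ← hPc, P.left_inv hPx]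
    have hPd : HasFDerivAt P.symm (J : R2 →L[ℝ] R2) 0 := by
      have := P.hasFDerivAt_symm (f' := J.symm) (a := 0)
        (by rw [← hΦ0]; exact P.map_source hPx) (by rw [hP0, hPc]; exact hd)
      simpa using! this
    have hφd : HasFDerivAt (fun z => P.symm (r • z)) (r • (J : R2 →L[ℝ] R2)) 0 := by
      have h2 : HasFDerivAt (fun z : R2 => r • z) (r • ContinuousLinearMap.id ℝ R2) 0 :=
        (hasFDerivAt_id 0).const_smul r
      refine (HasFDerivAt.comp (0 : R2) (g := P.symm) (by rwa [smul_zero]) h2).congr_fderiv ?_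
      ext v
      simp
    have hm : MDifferentiableAt 𝓘(ℝ, R2) 𝓘(ℝ, R2) e.symm (P.symm (r • (0 : R2))) := by
      rw [smul_zero, hP0]
      exact (hsymm.contMDiffAt (htO.mem_nhds hx₀t)).mdifferentiableAt (by simp)
    have hψd : ∀ v, (mfderiv 𝓘(ℝ, R2) 𝓘(ℝ, R2) ψ 0 v : R2) = r • E (J v) := fun v => by
      have hcomp := mfderiv_comp (0 : R2) (g := e.symm) hm hφd.hasMFDerivAt.mdifferentiableAt
      rw [hφd.hasMFDerivAt.mfderiv, smul_zero, hP0] at hcomp
      exact (DFunLike.congr_fun hcomp v).trans (map_smul E r (J v))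
    have hψ0 : ψ 0 = p := by simp [hψ, hP0, hes]
    have key : ∀ v v', H (ψ 0) (mfderiv 𝓘(ℝ, R2) 𝓘(ℝ, R2) ψ 0 v)
        (mfderiv 𝓘(ℝ, R2) 𝓘(ℝ, R2) ψ 0 v') = r ^ 2 * B (J v) (J v') := fun v v' => by
      change G (ψ 0) _ _ = _
      rw [hψd, hψd, hψ0]
      simp [hB]
      ring
    have hJ0 : J (pt 1 0) = u := by simp [hJ]
    have hJ1 : J (pt 0 1) = w := by simp [hJ]
    funext i
    have h00 := key (pt 1 0) (pt 1 0)
    have h01 := key (pt 1 0) (pt 0 1)
    have h11 := key (pt 0 1) (pt 0 1)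
    rw [hJ0, huu] at h00
    rw [hJ0, hJ1, huw] at h01
    rw [hJ1, hww] at h11
    fin_cases i
    · simpa [chartForm] using! h00
    · simpa [chartForm] using! h01
    · simpa [chartForm] using! h11

end Vale.Agent.P205
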