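import Vale.Agent.P205.Assembly.Step

/-!
Advancing the state by one disc of the palette.
-/

noncomputable section

open Set Metric Filter Finset
open scoped ContDiff Manifold Topology

namespace Vale.Agent.P205

open Wave (V4 ip D gram2)

variable {M : Type} [TopologicalSpace M] [ChartedSpace R2 M] [T2Space M]
  {h : M → ℝ} {H : MForm M} {χ : M → ℝ}

/-- The residual of one application, in another disc. -/
theorem resid_paste (Q : Palette h H χ) (hsym : ∀ p v w, H p v w = H p w v) {k : ℕ} (hk : k < Q.n)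
    (Z : M → V4) {X : M → V4} {Y : R2 → V4} (hX : ContMDiff 𝓘(ℝ, R2) 𝓘(ℝ, V4) ∞ X)
    (hYs : ContDiffOn ℝ ∞ Y (ball 0 3))
    (hY : ∀ z ∈ ball (0 : R2) 3, z ∉ (Q.disc ⟨k, hk⟩).S → Y z = X ((Q.disc ⟨k, hk⟩).par z))
    (e : Disc M) {z : R2} (hz : z ∈ ball (0 : R2) 3) :
    (e.par z ∉ (Q.disc ⟨k, hk⟩).par '' (Q.disc ⟨k, hk⟩).S →
      resid Q Z (k + 1) (paste (Q.disc ⟨k, hk⟩) X Y) e =ᶠ[𝓝 z] resid Q Z k X e) ∧
    (z ∈ (Q.disc ⟨k, hk⟩).ov e →
      resid Q Z (k + 1) (paste (Q.disc ⟨k, hk⟩) X Y) e =ᶠ[𝓝 z] fun w => resid Q Z k X e w +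
        pullL (fderiv ℝ ((Q.disc ⟨k, hk⟩).trans e) w)
          ((fun y => met Y y - met (fun u => X ((Q.disc ⟨k, hk⟩).par u)) y -
            Q.cut ⟨k, hk⟩ y ^ 2 • trioForm (Q.β ⟨k, hk⟩) y) ((Q.disc ⟨k, hk⟩).trans e w))) := by
  set c : Fin Q.n := ⟨k, hk⟩
  set d := Q.disc c
  refine ⟨fun hp => ?_, fun hov => ?_⟩
  · have hc : ContinuousAt e.par z :=
      (e.par_smooth.contMDiffAt (isOpen_ball.mem_nhds hz)).continuousAt
    have he := met_eventually (paste_eventually_off d e hY hz hp)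
    filter_upwards [he, hc.preimage_mem_nhds (d.image_compact.isClosed.isOpen_compl.mem_nhds hp)]
      with w h1 hw
    have hs : Q.share c (e.par w) = 0 := by
      by_contra h0; exact hw (Q.share_supp c _ h0)
    simp only [resid, h1, Q.part_succ hk]
    rw [show Q.share ⟨k, hk⟩ (e.par w) = 0 from hs]
    simp
  · have h1 := met_eventually (paste_on d e (X := X) (Y := Y) hov)
    have h2 : (fun w => X (e.par w)) =ᶠ[𝓝 z] (fun u => X (d.par u)) ∘ d.trans e := by
      filter_upwards [d.par_eq e hov] with w hw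
      simp only [Function.comp_apply, ← hw]
    filter_upwards [h1, met_eventually h2, (d.isOpen_ov e).mem_nhds hov] with w hm1 hm2 hw
    have hτ : DifferentiableAt ℝ (d.trans e) w :=
      (d.contDiffAt_trans e hw).differentiableAt (by simp)
    have hy := d.trans_mem e hw
    have hdX : DifferentiableAt ℝ (fun u => X (d.par u)) (d.trans e w) :=
      ((read_smooth d hX).differentiableOn (by simp)).differentiableAt (isOpen_ball.mem_nhds hy)
    have hdY : DifferentiableAt ℝ Y (d.trans e w) :=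
      (hYs.differentiableOn (by simp)).differentiableAt (isOpen_ball.mem_nhds hy)
    have hpar : d.par (d.trans e w) = e.par w := d.par_inv _ hw.2
    have hH := chartForm_comp H (d.par_eq e hw) (mfd_par d hy) hτ (fun v v' => hsym _ v v')
    have hf := Q.fill c _ hy
    simp only [resid, hm1, hm2, met_comp hdY hτ, met_comp hdX hτ, Q.part_succ hk, add_smul,
      pullL_apply, pullSym_sub]
    change _ = _ + (_ - _ - pullSym _ (Q.cut c (d.trans e w) ^ 2 • trioForm (Q.β c) (d.trans e w)))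
    rw [hf, pullSym_smul, hH, hpar]
    abel

theorem St.advance (hT : TrioProp) (Q : Palette h H χ)
    (𝒜 : Iter.Atlas (E := R2) (I := 𝓘(ℝ, R2)) (M := M)) (hsym : ∀ p v w, H p v w = H p w v)
    (Z : M → V4) :
    ∃ γ : ℕ, 1 ≤ γ ∧ ∀ (N k : ℕ) (_hk : k < Q.n) (C : ℕ → ℝ), ∃ (C' : ℕ → ℝ) (K0 : ℝ),
      ∀ K, K0 ≤ K → ∀ ε, (K ^ N)⁻¹ ≤ ε → ∀ X, St Q 𝒜 Z k C ε K X →
        ∃ X', St Q 𝒜 Z (k + 1) C' ε (K ^ γ) X' := by
  obtain ⟨γ, hγ⟩ := hT
  refine ⟨γ + 1, by omega, fun N k hk C => ?_⟩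
  set c : Fin Q.n := ⟨k, hk⟩ with hc
  set d := Q.disc c with hd
  -- the input constants of the three waves
  choose Bβ hBβ1 hBβ using fun j =>
    exists_derivBound isOpen_ball (Q.β_smooth c j) d.S_compact d.S_sub
  obtain ⟨Bc, hBc1, hBc⟩ :=
    exists_derivBound isOpen_univ (Q.cut_smooth c).contDiffOn d.S_compact (subset_univ _)
  obtain ⟨C2, hC2⟩ := Q.cut_flat c
  set Cin : ℕ → ℝ := fun i => |C i| + ∑ j, Bβ j i + Bc i with hCin
  have hCinC : ∀ i, |C i| ≤ Cin i := fun i => by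
    have h1 : 0 ≤ ∑ j, Bβ j i := Finset.sum_nonneg fun j _ => zero_le_one.trans (hBβ1 j i)
    have := hBc1 i
    simp only [hCin]; linarith
  have hCinβ : ∀ j i, Bβ j i ≤ Cin i := fun j i => by
    have h1 := Finset.single_le_sum (f := fun j => Bβ j i)
      (fun j _ => zero_le_one.trans (hBβ1 j i)) (Finset.mem_univ j)
    have := hBc1 i
    have := abs_nonneg (C i)
    simp only [hCin]; linarith
  have hCinc : Bc 0 ≤ Cin 0 := by
    have h1 : 0 ≤ ∑ j, Bβ j 0 := Finset.sum_nonneg fun j _ => zero_le_one.trans (hBβ1 j 0)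
    have := abs_nonneg (C 0)
    simp only [hCin]; linarith
  obtain ⟨Ct, K0, hK0⟩ := hγ N Cin (fun i l => |C2 i l|)
  -- the output constants
  set A : ℕ → ℝ := fun i => |C i| + |Ct i| with hA
  choose BP hBP using fun e : Fin Q.n => bd_paste d (Q.disc e) A A
  choose BA hBA using fun j : 𝒜.ι => bd_paste d (Disc.ofAtlas 𝒜 j) A A
  choose BL hBL using fun e : Fin Q.n =>
    (area_bend_paste d (Q.disc e) (fun z hz => Q.trans_axis c e hz)).2 (A 0)
  choose BS hBS using fun j : 𝒜.ι => sec_paste d (Disc.ofAtlas 𝒜 j) (A 0)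
  choose B1 hB1n hB1 using fun j : 𝒜.ι => Bd.comp_fixed (F := Sym2)
    (d.isOpen_ov (Disc.ofAtlas 𝒜 j)) (d.trans_smooth _) (d.hit_compact (Disc.ofAtlas 𝒜 j))
    (d.hit_sub _) Ct
  have hLs : ∀ j : 𝒜.ι, ContDiffOn ℝ ∞
      (fun w => pullL (fderiv ℝ (d.trans (Disc.ofAtlas 𝒜 j)) w)) (d.ov (Disc.ofAtlas 𝒜 j)) :=
    fun j => contDiff_pullL.comp_contDiffOn
      ((d.trans_smooth _).fderiv_of_isOpen (d.isOpen_ov _) (by simp))
  choose B2 hB2n hB2 using fun j : 𝒜.ι => Bd.apply_fixed (d.isOpen_ov (Disc.ofAtlas 𝒜 j)) (hLs j)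
    (d.hit_compact (Disc.ofAtlas 𝒜 j)) (d.hit_sub _) (B1 j)
  set C' : ℕ → ℝ := fun i => A i + ∑ e, |BP e i| + ∑ j, |BA j i| + ∑ e, |BL e * A 0| +
    ∑ j, |BS j * A 0| + ∑ j, B2 j i with hC'
  have gA : ∀ i, 0 ≤ A i := fun i => add_nonneg (abs_nonneg _) (abs_nonneg _)
  have hsum : ∀ i, 0 ≤ ∑ e, |BP e i| ∧ 0 ≤ ∑ j, |BA j i| ∧ 0 ≤ ∑ e, |BL e * A 0| ∧
      0 ≤ ∑ j, |BS j * A 0| ∧ 0 ≤ ∑ j, B2 j i := fun i =>
    ⟨Finset.sum_nonneg fun _ _ => abs_nonneg _, Finset.sum_nonneg fun _ _ => abs_nonneg _,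
      Finset.sum_nonneg fun _ _ => abs_nonneg _, Finset.sum_nonneg fun _ _ => abs_nonneg _,
      Finset.sum_nonneg fun j _ => hB2n j i⟩
  have hC'A : ∀ i, A i ≤ C' i := fun i => by
    obtain ⟨h1, h2, h3, h4, h5⟩ := hsum i
    simp only [hC']; linarith
  have hC'P : ∀ e i, |BP e i| ≤ C' i := fun e i => by
    obtain ⟨h1, h2, h3, h4, h5⟩ := hsum i
    have := gA i
    have := Finset.single_le_sum (f := fun e => |BP e i|) (fun _ _ => abs_nonneg _)
      (Finset.mem_univ e)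
    simp only [hC']; linarith
  have hC'A' : ∀ j i, |BA j i| ≤ C' i := fun j i => by
    obtain ⟨h1, h2, h3, h4, h5⟩ := hsum i
    have := gA i
    have := Finset.single_le_sum (f := fun j => |BA j i|) (fun _ _ => abs_nonneg _)
      (Finset.mem_univ j)
    simp only [hC']; linarith
  have hC'L : ∀ e, |BL e * A 0| ≤ C' 0 := fun e => by
    obtain ⟨h1, h2, h3, h4, h5⟩ := hsum 0
    have := gA 0
    have := Finset.single_le_sum (f := fun e => |BL e * A 0|) (fun _ _ => abs_nonneg _)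
      (Finset.mem_univ e)
    simp only [hC']; linarith
  have hC'S : ∀ j, |BS j * A 0| ≤ C' 0 := fun j => by
    obtain ⟨h1, h2, h3, h4, h5⟩ := hsum 0
    have := gA 0
    have := Finset.single_le_sum (f := fun j => |BS j * A 0|) (fun _ _ => abs_nonneg _)
      (Finset.mem_univ j)
    simp only [hC']; linarith
  have hC'R : ∀ j i, |C i| + B2 j i ≤ C' i := fun j i => by
    obtain ⟨h1, h2, h3, h4, h5⟩ := hsum i
    have h6 : |C i| ≤ A i := le_add_of_nonneg_right (abs_nonneg _)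
    have := Finset.single_le_sum (f := fun j => B2 j i) (fun j _ => hB2n j i) (Finset.mem_univ j)
    simp only [hC']; linarith
  refine ⟨C', max K0 1, fun K hK ε hε X hX => ?_⟩
  have hK1 : 1 ≤ K := le_of_max_le_right hK
  have hεn : 0 ≤ ε := (inv_nonneg.2 (pow_nonneg (zero_le_one.trans hK1) N)).trans hε
  have hKγ : K ≤ K ^ (γ + 1) := le_self_pow₀ hK1 (by omega)
  have hKt : K ^ γ ≤ K ^ (γ + 1) := pow_le_pow_right₀ hK1 (by omega)
  have hKt1 : 1 ≤ K ^ γ := one_le_pow₀ hK1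
  have hcut : ∀ z, Q.cut c z ≤ Cin 0 := fun z => by
    by_cases hz : z ∈ d.S
    · have h1 := hBc 0 0 le_rfl z hz
      rw [norm_iteratedFDeriv_zero] at h1
      exact ((le_abs_self _).trans h1).trans hCinc
    · rw [Q.cut_supp c z hz]
      exact (zero_le_one.trans (hBc1 0)).trans hCinc
  obtain ⟨Y, hYs, hYoff, hYb, -, hYr, hYpos, hYlow⟩ := hK0 K (le_of_max_le_left hK) (ball 0 3) d.S
    (fun z => X (d.par z)) (Q.cut c) (Q.β c)
    { open_ := isOpen_ball
      compact := d.S_compact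
      sub := d.S_sub
      smoothZ := read_smooth d hX.smooth
      smoothChi := Q.cut_smooth c
      smoothBeta := Q.β_smooth c
      supp := Q.cut_supp c
      chi_le := hcut
      bdZ := (hX.bdP c).mono hCinC hK1 le_rfl
      bdBeta := fun j i z hz => ((hBβ j i i le_rfl z hz).trans (hCinβ j i)).trans
        (le_mul_of_one_le_right ((zero_le_one.trans (hBβ1 j i)).trans (hCinβ j i))
          (one_le_pow₀ hK1))
      flat := hC2.mono hK1
      beta_range := Q.β_range c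
      imm := fun z hz => (hX.pos c z hz).1
      bend := fun z hz => (hX.pos c z hz).2
      low := fun z hz =>
        ⟨low_mono (hX.low c z hz).1 (hX.pos c z (d.S_sub hz)).1.le (zero_le_one.trans hK1) le_rfl
            (hCinC 0),
          low_mono (hX.low c z hz).2 (hX.pos c z (d.S_sub hz)).2.le (zero_le_one.trans hK1) le_rfl
            (hCinC 0)⟩ }
  have hKp : 0 ≤ K ^ γ := zero_le_one.trans hKt1
  have hA0 : |C 0| ≤ A 0 ∧ |Ct 0| ≤ A 0 :=
    ⟨le_add_of_nonneg_right (abs_nonneg _), le_add_of_nonneg_left (abs_nonneg _)⟩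
  have hAi : ∀ i, |C i| ≤ A i ∧ |Ct i| ≤ A i := fun i =>
    ⟨le_add_of_nonneg_right (abs_nonneg _), le_add_of_nonneg_left (abs_nonneg _)⟩
  have hYarea : ∀ y ∈ d.S, 0 < area Y y := fun y hy => by
    rcases lt_or_ge 0 (area Y y) with h1 | h1
    · exact h1
    · exfalso
      have h2 := (hYlow y hy).1
      have h3 : 0 ≤ area Y y := by
        unfold area gram2
        nlinarith [Legal.abs_ip_le (D (pt 1 0) Y y) (D (pt 0 1) Y y),
          Legal.len_sq (D (pt 1 0) Y y), Legal.len_sq (D (pt 0 1) Y y),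
          abs_nonneg (ip (D (pt 1 0) Y y) (D (pt 0 1) Y y)), sq_abs (ip (D (pt 1 0) Y y)
          (D (pt 0 1) Y y))]
      have h4 : area Y y = 0 := le_antisymm h1 h3
      rw [h4, mul_zero] at h2
      linarith
  refine ⟨paste d X Y, ⟨paste_smooth d hYoff hX.smooth hYs, fun e => ?_, fun j => ?_, fun e z hz => ?_,
    fun e z hz => ?_, fun j z hz => ?_, fun j => ?_, fun j => ?_⟩⟩
  · exact (hBP e X Y _ (one_le_pow₀ hK1) hYs hYoff
      ((hX.bdP e).mono (fun i => (hAi i).1) hK1 hKγ)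
      (hYb.mono (fun i => (hAi i).2) hKt1 hKt)).mono (hC'P e) (one_le_pow₀ hK1) le_rfl
  · exact (hBA j X Y _ (one_le_pow₀ hK1) hYs hYoff
      ((hX.bdA j).mono (fun i => (hAi i).1) hK1 hKγ)
      (hYb.mono (fun i => (hAi i).2) hKt1 hKt)).mono (hC'A' j) (one_le_pow₀ hK1) le_rfl
  · by_cases hp : (Q.disc e).par z ∈ d.par '' d.S
    · have hh : z ∈ d.hit (Q.disc e) := ⟨hz, hp⟩
      have hy := d.trans_hit _ hh
      obtain ⟨l1, l2⟩ := hYlow _ hy
      have p1 := hYarea _ hy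
      have p2 := hYpos _ (d.S_sub hy)
      obtain ⟨g1, g2⟩ := hBL e X Y (K ^ (γ + 1)) hYs z hh p1
        (low_mono l1 p1.le hKp hKt hA0.2) (low_mono l2 p2.le hKp hKt hA0.2)
      obtain ⟨q1, q2⟩ := (area_bend_paste d (Q.disc e) (fun y hy => Q.trans_axis c e hy)).1 X Y hYs
        z (d.hit_sub _ hh) p1 p2
      exact ⟨low_mono g1 q1.le (by positivity) le_rfl (hC'L e),
        low_mono g2 q2.le (by positivity) le_rfl (hC'L e)⟩
    · have he := paste_eventually_off d (Q.disc e) hYoff ((Q.disc e).S_sub hz) hp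
      obtain ⟨q1, q2⟩ := hX.pos e z ((Q.disc e).S_sub hz)
      rw [area_congr he, bend_congr he]
      exact ⟨low_mono (hX.low e z hz).1 q1.le (zero_le_one.trans hK1) hKγ (hA0.1.trans (hC'A 0)),
        low_mono (hX.low e z hz).2 q2.le (zero_le_one.trans hK1) hKγ (hA0.1.trans (hC'A 0))⟩
  · by_cases hp : (Q.disc e).par z ∈ d.par '' d.S
    · obtain ⟨w, hw, hwz⟩ := hp
      have hov : z ∈ d.ov (Q.disc e) :=
        ⟨hz, by rw [Set.mem_preimage, ← hwz]; exact d.par_mem (d.S_sub hw)⟩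
      have hy : d.trans (Q.disc e) z = w := by rw [Disc.trans, ← hwz, d.inv_par w (d.S_sub hw)]
      exact (area_bend_paste d (Q.disc e) (fun y hy => Q.trans_axis c e hy)).1 X Y hYs z hov
        (hy ▸ hYarea w hw) (hy ▸ hYpos w (d.S_sub hw))
    · rw [area_congr (paste_eventually_off d (Q.disc e) hYoff hz hp),
        bend_congr (paste_eventually_off d (Q.disc e) hYoff hz hp)]
      exact hX.pos e z hz
  · by_cases hp : (Disc.ofAtlas 𝒜 j).par z ∈ d.par '' d.S
    · have hh : z ∈ d.hit (Disc.ofAtlas 𝒜 j) := ⟨hz, hp⟩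
      have hy := d.trans_hit _ hh
      have p2 := hYpos _ (d.S_sub hy)
      exact low_mono (hBS j X Y (K ^ (γ + 1)) hYs (mul_nonneg (gA 0) (by positivity)) z hh
        (hYarea _ hy) (low_mono (hYlow _ hy).2 p2.le hKp hKt hA0.2))
        (sffSq_nonneg _ _) (by positivity) le_rfl (hC'S j)
    · rw [sffSq_congr (paste_eventually_off d (Disc.ofAtlas 𝒜 j) hYoff
        ((Disc.ofAtlas 𝒜 j).S_sub hz) hp)]
      exact low_mono (hX.sec j z hz) (sffSq_nonneg _ _) (zero_le_one.trans hK1) hKγ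
        (hA0.1.trans (hC'A 0))
  all_goals
    have hRs : ContDiffOn ℝ ∞ (fun y => met Y y - met (fun u => X (d.par u)) y -
        Q.cut c y ^ 2 • trioForm (Q.β c) y) (ball 0 3) := by
      refine ((contDiffOn_met isOpen_ball hYs).sub
        (contDiffOn_met isOpen_ball (read_smooth d hX.smooth))).sub
        (((Q.cut_smooth c).contDiffOn.pow 2).smul ?_)
      exact (((Q.β_smooth c 0).smul contDiffOn_const).add
        ((Q.β_smooth c 1).smul contDiffOn_const)).add ((Q.β_smooth c 2).smul contDiffOn_const)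
    have hcorr := ((hLs j).clm_apply (hRs.comp (d.trans_smooth (Disc.ofAtlas 𝒜 j))
      fun w hw => d.trans_mem (Disc.ofAtlas 𝒜 j) hw))
  · intro z hz
    refine ContDiffAt.contDiffWithinAt ?_
    obtain ⟨hoff, hon⟩ := resid_paste Q hsym hk Z hX.smooth hYs hYoff (Disc.ofAtlas 𝒜 j) hz
    have hold := (hX.resSmooth j).contDiffAt (isOpen_ball.mem_nhds hz)
    by_cases hp : (Disc.ofAtlas 𝒜 j).par z ∈ d.par '' d.S
    · obtain ⟨w, hw, hwz⟩ := hp
      have hov : z ∈ d.ov (Disc.ofAtlas 𝒜 j) :=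
        ⟨hz, by rw [Set.mem_preimage, ← hwz]; exact d.par_mem (d.S_sub hw)⟩
      exact (hold.add (hcorr.contDiffAt ((d.isOpen_ov _).mem_nhds hov))).congr_of_eventuallyEq
        (hon hov)
    · exact hold.congr_of_eventuallyEq (hoff hp)
  · intro i z hz
    have hz3 := (Disc.ofAtlas 𝒜 j).S_sub hz
    obtain ⟨hoff, hon⟩ := resid_paste Q hsym hk Z hX.smooth hYs hYoff (Disc.ofAtlas 𝒜 j) hz3
    have hold := (hX.resSmooth j).contDiffAt (isOpen_ball.mem_nhds hz3)
    have hKi : K ^ i ≤ (K ^ (γ + 1)) ^ i := pow_le_pow_left₀ (zero_le_one.trans hK1) hKγ i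
    have hb1 : ‖iteratedFDeriv ℝ i (resid Q Z k X (Disc.ofAtlas 𝒜 j)) z‖ ≤
        |C i| * ε * (K ^ (γ + 1)) ^ i := (hX.res j i z hz).trans
      (mul_le_mul (mul_le_mul_of_nonneg_right (le_abs_self _) hεn) hKi (by positivity)
        (mul_nonneg (abs_nonneg _) hεn))
    have hp0 : (0 : ℝ) ≤ ε * (K ^ (γ + 1)) ^ i := mul_nonneg hεn (by positivity)
    by_cases hp : (Disc.ofAtlas 𝒜 j).par z ∈ d.par '' d.S
    · have hh : z ∈ d.hit (Disc.ofAtlas 𝒜 j) := ⟨hz, hp⟩
      have hov := d.hit_sub _ hh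
      have hYr' : Bd d.S (fun i => Ct i * (K ^ N)⁻¹) (K ^ γ) (fun y => met Y y -
          met (fun u => X (d.par u)) y - Q.cut c y ^ 2 • trioForm (Q.β c) y) := hYr
      have hcomp := hB1 j (ball 0 3) d.S _ (K ^ N)⁻¹ (K ^ γ) isOpen_ball d.S_sub hRs
        (inv_nonneg.2 (pow_nonneg (zero_le_one.trans hK1) N)) hKt1 hYr' z hh (d.trans_hit _ hh)
      have hap := hB2 j (d.ov (Disc.ofAtlas 𝒜 j)) _ (K ^ N)⁻¹ (K ^ γ) (d.isOpen_ov _)
        (hRs.comp (d.trans_smooth _) fun w hw => d.trans_mem _ hw)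
        (inv_nonneg.2 (pow_nonneg (zero_le_one.trans hK1) N)) hKt1 z hh hov hcomp i
      have hadd := fun_iteratedFDeriv_add_apply (i := i)
        (hold.of_le (by exact WithTop.coe_le_coe.2 le_top))
          (((hcorr.contDiffAt ((d.isOpen_ov _).mem_nhds hov))).of_le
            (by exact WithTop.coe_le_coe.2 le_top))
      refine le_of_eq_of_le (congrArg norm
        ((((hon hov).iteratedFDeriv ℝ i).eq_of_nhds).trans hadd)) ?_
      refine (norm_add_le _ _).trans ((add_le_add hb1 (hap.trans (c := B2 j i * ε *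
        (K ^ (γ + 1)) ^ i) ?_)).trans ?_)
      · exact mul_le_mul (mul_le_mul_of_nonneg_left hε (hB2n j i))
          (pow_le_pow_left₀ hKp hKt i) (by positivity) (mul_nonneg (hB2n j i) hεn)
      · calc |C i| * ε * (K ^ (γ + 1)) ^ i + B2 j i * ε * (K ^ (γ + 1)) ^ i
            = (|C i| + B2 j i) * (ε * (K ^ (γ + 1)) ^ i) := by ring
          _ ≤ C' i * (ε * (K ^ (γ + 1)) ^ i) := mul_le_mul_of_nonneg_right (hC'R j i) hp0
          _ = _ := by ring
    · rw [((hoff hp).iteratedFDeriv ℝ i).eq_of_nhds]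
      refine hb1.trans ?_
      rw [mul_assoc, mul_assoc (C' i)]
      exact mul_le_mul_of_nonneg_right ((hAi i).1.trans (hC'A i)) hp0

end Vale.Agent.P205
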