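import Vale.Agent.P205.Legal.Flat

/-!
Producing flat cut-offs: the standard flat function of a smooth nonnegative function, products
with positive functions, and compositions with smooth maps, which also keep derivative bounds.
-/

noncomputable section

open Set Finset Real Polynomial
open scoped ContDiff

namespace Vale.Agent.P205

open Legal (expo expo_nonneg expo_le_one flat_bound flat_of_bound)

/-- A bound of every derivative of a smooth function on a compact set. -/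
theorem exists_deriv_bound {X F : Type} [NormedAddCommGroup X] [NormedSpace ℝ X]
    [NormedAddCommGroup F] [NormedSpace ℝ F] {Ω S : Set X} (hΩ : IsOpen Ω) (hS : IsCompact S)
    (hsub : S ⊆ Ω) {f : X → F} (hf : ContDiffOn ℝ ∞ f Ω) :
    ∃ M : ℕ → ℝ, (∀ i, 1 ≤ M i) ∧ ∀ i, ∀ z ∈ S, ‖iteratedFDeriv ℝ i f z‖ ≤ M i := by
  have h : ∀ i : ℕ, ∃ M : ℝ, ∀ z ∈ S, ‖iteratedFDeriv ℝ i f z‖ ≤ M := fun i => by
    refine hS.exists_bound_of_continuousOn (ContinuousOn.congr ((hf.continuousOn_iteratedFDerivWithin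
      (m := i) (by exact_mod_cast le_top) hΩ.uniqueDiffOn).mono hsub) fun z hz => ?_)
    exact (iteratedFDerivWithin_of_isOpen i hΩ (hsub hz)).symm
  choose M hM using h
  exact ⟨fun i => max 1 (M i), fun i => le_max_left _ _,
    fun i z hz => (hM i z hz).trans (le_max_right _ _)⟩

/-- The derivatives of `g ∘ f` when those of `g` cost `K` with a weight. -/
theorem exists_comp_bound {X Y : Type} [NormedAddCommGroup X] [NormedSpace ℝ X]
    [NormedAddCommGroup Y] [NormedSpace ℝ Y] {Ω S : Set X} (hΩ : IsOpen Ω) (hS : IsCompact S)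
    (hsub : S ⊆ Ω) {f : X → Y} (hf : ContDiffOn ℝ ∞ f Ω) (C : ℕ → ℝ) :
    ∃ C1 : ℕ → ℝ, ∀ {G : Type} [NormedAddCommGroup G] [NormedSpace ℝ G] (g : Y → G) (T : Set Y),
      IsOpen T → ContDiffOn ℝ ∞ g T → MapsTo f S T → ∀ K : ℝ, 1 ≤ K → ∀ z ∈ S, ∀ w : ℝ, 0 ≤ w →
        (∀ i, ‖iteratedFDeriv ℝ i g (f z)‖ ≤ C i * K ^ i * w) →
          ∀ i, ‖iteratedFDeriv ℝ i (fun y => g (f y)) z‖ ≤ C1 i * K ^ i * w := by
  obtain ⟨M, hM1, hM⟩ := exists_deriv_bound hΩ hS hsub hf
  refine ⟨fun n => n.factorial * (∑ l ∈ range (n + 1), |C l|) *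
    (∑ l ∈ range (n + 1), M l) ^ n, fun g T hT hg hmap K hK z hz w hw0 hw n => ?_⟩
  set D := ∑ l ∈ range (n + 1), M l
  have hMl : ∀ l, l ≤ n → M l ≤ D := fun l hl =>
    single_le_sum (f := M) (fun j _ => zero_le_one.trans (hM1 j)) (mem_range.2 (by omega))
  have hD : 1 ≤ D := (hM1 0).trans (hMl 0 n.zero_le)
  have hfz : f z ∈ T := hmap hz
  have hU : IsOpen (Ω ∩ f ⁻¹' T) := hf.continuousOn.isOpen_inter_preimage hΩ hT
  have hzU : z ∈ Ω ∩ f ⁻¹' T := ⟨hsub hz, hfz⟩
  have hle : (n : WithTop ℕ∞) ≤ ∞ := by exact_mod_cast le_top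
  have h := norm_iteratedFDerivWithin_comp_le (n := n) (C := (∑ l ∈ range (n + 1), |C l|) * K ^ n * w)
    (D := D) hg (hf.mono inter_subset_left) hle hT.uniqueDiffOn hU.uniqueDiffOn
    (fun y hy => hy.2) hzU (fun l hl => ?_) (fun l hl hl2 => ?_)
  · rw [iteratedFDerivWithin_of_isOpen n hU hzU] at h
    exact h.trans (le_of_eq (by ring))
  · rw [iteratedFDerivWithin_of_isOpen l hT hfz]
    refine (hw l).trans ?_
    gcongr
    exact (le_abs_self _).trans (single_le_sum (f := fun j => |C j|)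
      (fun j _ => abs_nonneg _) (mem_range.2 (by omega)))
  · rw [iteratedFDerivWithin_of_isOpen l hU hzU]
    exact (hM l z hz).trans ((hMl l hl2).trans (le_self_pow₀ hD (by omega)))

/-- **Derivative bounds survive a smooth change of variables.** -/
theorem Bd.comp_exists {Ω S₀ : Set R2} (hΩ : IsOpen Ω) (hS : IsCompact S₀) (hsub : S₀ ⊆ Ω)
    {f : R2 → R2} (hf : ContDiffOn ℝ ∞ f Ω) (C : ℕ → ℝ) :
    ∃ C1 : ℕ → ℝ, ∀ {F : Type} [NormedAddCommGroup F] [NormedSpace ℝ F] (g : R2 → F)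
      (S T : Set R2) (K : ℝ), IsOpen T → ContDiffOn ℝ ∞ g T → MapsTo f S₀ (S ∩ T) → 1 ≤ K →
        Bd S C K g → Bd S₀ C1 K fun z => g (f z) := by
  obtain ⟨C1, h⟩ := exists_comp_bound hΩ hS hsub hf C
  refine ⟨C1, fun g S T K hT hg hmap hK hb i z hz => ?_⟩
  simpa using h g T hT hg (fun y hy => (hmap hy).2) K hK z hz 1 zero_le_one
    (fun l => by simpa using hb l _ (hmap hz).1) i

/-- **Flatness survives a smooth change of variables.** -/
theorem Flat.comp_exists {Ω S₀ S T : Set R2} (hΩ : IsOpen Ω) (hS : IsCompact S₀) (hsub : S₀ ⊆ Ω)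
    {f : R2 → R2} (hf : ContDiffOn ℝ ∞ f Ω) {C : ℕ → ℕ → ℝ} {K : ℝ} (hK : 1 ≤ K) {χ : R2 → ℝ}
    (hT : IsOpen T) (hχ : ContDiffOn ℝ ∞ χ T) (hmap : MapsTo f S₀ (S ∩ T)) (hfl : Flat S C K χ) :
    ∃ C1, Flat S₀ C1 K fun z => χ (f z) := by
  choose C1 h using fun d => exists_comp_bound hΩ hS hsub hf (fun i => |C i d|)
  refine ⟨fun i d => C1 d i, flat_of_bound (by linarith) (fun z hz => (hfl _ (hmap hz).1).1)
    fun z hz i d => ?_⟩
  exact h d χ T hT hχ (fun y hy => (hmap hy).2) K hK z hz _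
    (Real.rpow_nonneg (hfl _ (hmap hz).1).1 _) (fun l => flat_bound hfl (by linarith) (hmap hz).1 l d) i

/-- **A flat cut-off times a positive smooth function is flat.** -/
theorem Flat.mul_pos_exists {Ω S : Set R2} (hΩ : IsOpen Ω) (hS : IsCompact S) (hsub : S ⊆ Ω)
    {C : ℕ → ℕ → ℝ} {K : ℝ} (hK : 1 ≤ K) {χ a : R2 → ℝ} (hχ : ContDiffOn ℝ ∞ χ Ω)
    (ha : ContDiffOn ℝ ∞ a Ω) (hpos : ∀ z ∈ S, 0 < a z) (hfl : Flat S C K χ) :
    ∃ C1, Flat S C1 K fun z => a z * χ z := by
  obtain ⟨M, hM1, hM⟩ := exists_deriv_bound hΩ hS hsub ha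
  obtain ⟨m, hm, hm1, hma⟩ : ∃ m : ℝ, 0 < m ∧ m ≤ 1 ∧ ∀ z ∈ S, m ≤ a z := by
    rcases S.eq_empty_or_nonempty with rfl | hne
    · exact ⟨1, one_pos, le_rfl, fun z hz => hz.elim⟩
    obtain ⟨z₀, hz₀, hmin⟩ := hS.exists_isMinOn hne (ha.continuousOn.mono hsub)
    exact ⟨min 1 (a z₀), lt_min one_pos (hpos z₀ hz₀), min_le_left _ _,
      fun z hz => (min_le_right _ _).trans (hmin hz)⟩
  refine ⟨fun i d => (∑ l ∈ range (i + 1), (i.choose l : ℝ) * M l * |C (i - l) d|) / m,
    flat_of_bound (by linarith) (fun z hz => mul_nonneg (hpos z hz).le (hfl z hz).1)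
    fun z hz i d => ?_⟩
  have hc0 := (hfl z hz).1
  have hle : (i : WithTop ℕ∞) ≤ ∞ := by exact_mod_cast le_top
  have h := norm_iteratedFDerivWithin_mul_le (n := i) ha hχ hΩ.uniqueDiffOn (hsub hz) hle
  rw [iteratedFDerivWithin_of_isOpen i hΩ (hsub hz)] at h
  refine h.trans ?_
  have hw : χ z ^ expo d ≤ (a z * χ z) ^ expo d / m := by
    rw [Real.mul_rpow (hpos z hz).le hc0, le_div_iff₀ hm, mul_comm _ m]
    refine mul_le_mul_of_nonneg_right ?_ (Real.rpow_nonneg hc0 _)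
    calc m = m ^ (1 : ℝ) := (Real.rpow_one m).symm
      _ ≤ m ^ expo d := Real.rpow_le_rpow_of_exponent_ge hm hm1 (expo_le_one d)
      _ ≤ a z ^ expo d := Real.rpow_le_rpow hm.le (hma z hz) (expo_nonneg d)
  rw [sum_div, sum_mul, sum_mul]
  refine sum_le_sum fun l hl => ?_
  have hli : l ≤ i := Nat.lt_succ_iff.1 (mem_range.1 hl)
  rw [iteratedFDerivWithin_of_isOpen l hΩ (hsub hz), iteratedFDerivWithin_of_isOpen (i - l) hΩ (hsub hz)]
  calc (i.choose l : ℝ) * ‖iteratedFDeriv ℝ l a z‖ * ‖iteratedFDeriv ℝ (i - l) χ z‖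
      ≤ (i.choose l : ℝ) * M l * (|C (i - l) d| * K ^ i * ((a z * χ z) ^ expo d / m)) := by
        have := zero_le_one.trans (hM1 l)
        gcongr
        · exact hM l z hz
        · refine (flat_bound hfl (by linarith) hz (i - l) d).trans ?_
          gcongr
          · omega
    _ = _ := by ring

/-- The derivatives of the standard flat function. -/
theorem expNegInvGlue_bound (n d : ℕ) :
    ∃ B : ℝ, ∀ x, |iteratedDeriv n expNegInvGlue x| ≤ B * expNegInvGlue x ^ expo d := by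
  obtain ⟨p, hp⟩ : ∃ p : ℝ[X], iteratedDeriv n expNegInvGlue =
      fun x => p.eval x⁻¹ * expNegInvGlue x := by
    induction n with
    | zero => exact ⟨1, by simp⟩
    | succ n ih =>
      obtain ⟨p, hp⟩ := ih
      exact ⟨X ^ 2 * (p - derivative (R := ℝ) p), by
        rw [iteratedDeriv_succ, hp]
        funext x
        exact (expNegInvGlue.hasDerivAt_polynomial_eval_inv_mul p x).deriv⟩
  set a : ℝ := 1 / (d + 1) with ha
  have ha0 : 0 < a := by positivity
  refine ⟨∑ j ∈ p.support, |p.coeff j| * (j.factorial / a ^ j), fun x => ?_⟩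
  rw [hp]
  rcases le_or_gt x 0 with hx | hx
  · simp only [expNegInvGlue.zero_of_nonpos hx, mul_zero, abs_zero]
    positivity
  set y := x⁻¹
  have hy : 0 < y := inv_pos.2 hx
  have he : expNegInvGlue x = Real.exp (-y) := by simp [expNegInvGlue, hx.not_ge, y]
  have hsplit : Real.exp (-y) = Real.exp (-y) ^ expo d * (Real.exp (a * y))⁻¹ := by
    rw [← Real.exp_mul, ← Real.exp_neg, ← Real.exp_add]
    congr 1
    rw [ha]; unfold expo; field_simp; ring
  simp only [he, abs_mul, abs_of_pos (Real.exp_pos (-y))]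
  calc |p.eval y| * Real.exp (-y)
      = |p.eval y| * (Real.exp (a * y))⁻¹ * Real.exp (-y) ^ expo d := by
        conv_lhs => rw [hsplit]
        ring
    _ ≤ _ := by
        refine mul_le_mul_of_nonneg_right ?_ (by positivity)
        rw [← div_eq_mul_inv, div_le_iff₀ (Real.exp_pos _), Polynomial.eval_eq_sum, Polynomial.sum,
          sum_mul]
        refine (abs_sum_le_sum_abs _ _).trans (sum_le_sum fun j _ => ?_)
        rw [abs_mul, abs_pow, abs_of_pos hy, mul_assoc]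
        refine mul_le_mul_of_nonneg_left ?_ (abs_nonneg _)
        have h := Real.pow_div_factorial_le_exp (a * y) (by positivity) j
        rw [div_le_iff₀ (by positivity), mul_pow] at h
        rw [div_mul_eq_mul_div, le_div_iff₀ (by positivity)]
        linarith

/-- **The standard flat function of a smooth function is flat on compact sets.** -/
theorem flat_expNegInvGlue {Ω S : Set R2} (hΩ : IsOpen Ω) (hS : IsCompact S) (hsub : S ⊆ Ω)
    {b : R2 → ℝ} (hb : ContDiffOn ℝ ∞ b Ω) :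
    ∃ C, Flat S C 1 fun z => expNegInvGlue (b z) := by
  choose B hB using expNegInvGlue_bound
  choose C1 h using fun d => exists_comp_bound hΩ hS hsub hb (fun i => B i d)
  refine ⟨fun i d => C1 d i, flat_of_bound zero_le_one (fun z _ => expNegInvGlue.nonneg _)
    fun z hz i d => ?_⟩
  exact h d expNegInvGlue univ isOpen_univ expNegInvGlue.contDiff.contDiffOn (mapsTo_univ _ _) 1
    le_rfl z hz _ (Real.rpow_nonneg (expNegInvGlue.nonneg _) _) (fun l => by
      rw [norm_iteratedFDeriv_eq_norm_iteratedDeriv, Real.norm_eq_abs, one_pow, mul_one]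
      exact hB l d (b z)) i

/-- **Locality.** Flatness only depends on the germ at each point of the set. -/
theorem Flat.congr_nhds {S : Set R2} {C : ℕ → ℕ → ℝ} {K : ℝ} {χ χ' : R2 → ℝ}
    (hfl : Flat S C K χ) (h : ∀ z ∈ S, χ' =ᶠ[nhds z] χ) : Flat S C K χ' := fun z hz => by
  refine ⟨(h z hz).eq_of_nhds ▸ (hfl z hz).1, fun i d => ?_⟩
  rw [(h z hz).eq_of_nhds, ((h z hz).iteratedFDeriv ℝ i).eq_of_nhds]
  exact (hfl z hz).2 i d

end Vale.Agent.P205
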