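import Vale.Agent.P205.Chart
import Mathlib.Geometry.Manifold.MFDeriv.Atlas
import Mathlib.Geometry.Manifold.ContMDiff.Atlas

/-!
Tensor fields on a surface and their components in a parametrisation.
-/

noncomputable section

open scoped ContDiff Manifold

namespace Vale.Agent.P205

/-- A symmetric positive tensor field; smoothness is asked in the charts. -/
abbrev MForm (M : Type) [TopologicalSpace M] [ChartedSpace R2 M] :=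
  (p : M) → TangentSpace 𝓘(ℝ, R2) p →L[ℝ] TangentSpace 𝓘(ℝ, R2) p →L[ℝ] ℝ

variable {M : Type} [TopologicalSpace M] [ChartedSpace R2 M]

/-- Components of a tensor field in a parametrisation. -/
def chartForm (g : MForm M) (ψ : R2 → M) (z : R2) : Sym2 :=
  ![g (ψ z) (mfderiv 𝓘(ℝ, R2) 𝓘(ℝ, R2) ψ z (pt 1 0)) (mfderiv 𝓘(ℝ, R2) 𝓘(ℝ, R2) ψ z (pt 1 0)),
    g (ψ z) (mfderiv 𝓘(ℝ, R2) 𝓘(ℝ, R2) ψ z (pt 1 0)) (mfderiv 𝓘(ℝ, R2) 𝓘(ℝ, R2) ψ z (pt 0 1)),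
    g (ψ z) (mfderiv 𝓘(ℝ, R2) 𝓘(ℝ, R2) ψ z (pt 0 1)) (mfderiv 𝓘(ℝ, R2) 𝓘(ℝ, R2) ψ z (pt 0 1))]

end Vale.Agent.P205
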