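import Vale.Agent.P205.Assembly.Step

/-!
The state before the first disc of the palette; scaling of the second fundamental form.
-/

noncomputable section

open Set Metric Filter Finset
open scoped ContDiff Manifold Topology

namespace Vale.Agent.P205

open Wave (V4 ip D gram2 lift2)

theorem ip_self_pos {w : V4} (hw : w ≠ 0) : 0 < ip w w := by
  obtain ⟨i, hi⟩ := Function.ne_iff.1 hw
  exact Finset.sum_pos' (fun i _ => mul_self_nonneg (w i))
    ⟨i, Finset.mem_univ i, mul_self_pos.2 hi⟩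

theorem contDiffOn_area {U : Set R2} (hU : IsOpen U) {f : R2 → V4} (hf : ContDiffOn ℝ ∞ f U) :
    ContDiffOn ℝ ∞ (area f) U := by
  have h1 := Wave.contDiffOn_D hU hf (pt 1 0)
  have h2 := Wave.contDiffOn_D hU hf (pt 0 1)
  exact ((Wave.contDiffOn_ip h1 h1).mul (Wave.contDiffOn_ip h2 h2)).sub
    ((Wave.contDiffOn_ip h1 h2).pow 2)

theorem continuousOn_sff {U : Set R2} (hU : IsOpen U) {f : R2 → V4} (hf : ContDiffOn ℝ ∞ f U)
    (hA : ∀ z ∈ U, area f z ≠ 0) (a b : R2) : ContinuousOn (fun z => sff f z a b) U := by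
  have h1 := Wave.contDiffOn_D hU hf (pt 1 0)
  have h2 := Wave.contDiffOn_D hU hf (pt 0 1)
  have h3 := Wave.contDiffOn_D hU (Wave.contDiffOn_D hU hf b) a
  have hg : ContinuousOn (fun z => gram2 (D (pt 1 0) f z) (D (pt 0 1) f z)) U :=
    (contDiffOn_area hU hf).continuousOn
  have hip : ∀ {u v : R2 → V4}, ContDiffOn ℝ ∞ u U → ContDiffOn ℝ ∞ v U →
      ContinuousOn (fun z => ip (u z) (v z)) U := fun hu hv =>
    (Wave.contDiffOn_ip hu hv).continuousOn
  simp only [sff, perp2, lift2]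
  exact h3.continuousOn.sub (((((hip h1 h3).mul (hip h2 h2)).sub
    ((hip h2 h3).mul (hip h1 h2))).div hg hA).smul h1.continuousOn |>.add
      (((((hip h2 h3).mul (hip h1 h1)).sub ((hip h1 h3).mul (hip h1 h2))).div hg hA).smul
        h2.continuousOn))

theorem continuousOn_ip {X : Type} [TopologicalSpace X] {S : Set X} {u v : X → V4}
    (hu : ContinuousOn u S) (hv : ContinuousOn v S) :
    ContinuousOn (fun z => ip (u z) (v z)) S :=
  continuousOn_finsetSum _ fun i _ =>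
    ((continuous_apply i).comp_continuousOn hu).mul ((continuous_apply i).comp_continuousOn hv)

theorem continuousOn_bend {U : Set R2} (hU : IsOpen U) {f : R2 → V4} (hf : ContDiffOn ℝ ∞ f U)
    (hA : ∀ z ∈ U, area f z ≠ 0) :
    ContinuousOn (bendSq f) U ∧ ContinuousOn (sffSq f) U := by
  have h := continuousOn_sff hU hf hA
  refine ⟨continuousOn_ip (h _ _) (h _ _), ?_⟩
  exact ((continuousOn_ip (h _ _) (h _ _)).add
    (continuousOn_const.mul (continuousOn_ip (h _ _) (h _ _)))).add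
      (continuousOn_ip (h _ _) (h _ _))

/-- Scaling of the second fundamental form. -/
theorem sff_smul {f : R2 → V4} {z : R2} (hf : ContDiffAt ℝ 2 f z) {r : ℝ} (hr : r ≠ 0)
    (a b : R2) : sff (fun w => r • f w) z a b = r • sff f z a b := by
  have hd1 : ∀ v, ∀ᶠ w in 𝓝 z, D v (fun w => r • f w) w = r • D v f w := fun v => by
    filter_upwards [hf.eventually (by simp)] with w hw
    simp [D, fderiv_fun_const_smul (hw.differentiableAt (by norm_num)) r]
  have hdiff : DifferentiableAt ℝ (D b f) z :=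
    ((hf.fderiv_right (m := 1) (by norm_num)).clm_apply contDiffAt_const).differentiableAt
      (by norm_num)
  have h2 : D a (D b (fun w => r • f w)) z = r • D a (D b f) z := by
    have he : D b (fun w => r • f w) =ᶠ[𝓝 z] fun w => r • D b f w := hd1 b
    show fderiv ℝ (D b fun w => r • f w) z a = _
    rw [he.fderiv_eq, fderiv_fun_const_smul hdiff r]
    rfl
  rw [sff, sff, h2, (hd1 _).self_of_nhds, (hd1 _).self_of_nhds]
  funext i
  simp only [perp2, lift2, gram2, Wave.ip_smul_left, Wave.ip_smul_right, Pi.sub_apply,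
    Pi.add_apply, Pi.smul_apply, smul_eq_mul]
  by_cases hg : ip (D (pt 1 0) f z) (D (pt 1 0) f z) * ip (D (pt 0 1) f z) (D (pt 0 1) f z) -
      ip (D (pt 1 0) f z) (D (pt 0 1) f z) ^ 2 = 0
  · have hg' : r * (r * ip (D (pt 1 0) f z) (D (pt 1 0) f z)) *
        (r * (r * ip (D (pt 0 1) f z) (D (pt 0 1) f z))) -
          (r * (r * ip (D (pt 1 0) f z) (D (pt 0 1) f z))) ^ 2 = 0 := by
      linear_combination r ^ 4 * hg
    simp only [hg, hg', div_zero, zero_mul, add_zero]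
    ring
  · field_simp

theorem sffSq_smul {f : R2 → V4} {z : R2} (hf : ContDiffAt ℝ 2 f z) {r : ℝ} (hr : r ≠ 0) :
    sffSq (fun w => r • f w) z = r ^ 2 * sffSq f z := by
  simp only [sffSq, sff_smul hf hr, Wave.ip_smul_left, Wave.ip_smul_right]
  ring

variable {M : Type} [TopologicalSpace M] [ChartedSpace R2 M]
  {h : M → ℝ} {H : MForm M} {χ : M → ℝ}

/-- A nonzero second form in the discs of an atlas is nonzero in every disc. -/
theorem pos_of_atlas (𝒜 : Iter.Atlas (E := R2) (I := 𝓘(ℝ, R2)) (M := M)) {Z : M → V4}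
    (hZ : ContMDiff 𝓘(ℝ, R2) 𝓘(ℝ, V4) ∞ Z)
    (hZp : ∀ j, ∀ z ∈ ball (0 : R2) 3, 0 < area (fun w => Z (𝒜.par j w)) z ∧
      ∀ a : R2, a ≠ 0 → sff (fun w => Z (𝒜.par j w)) z a a ≠ 0)
    (d : Disc M) {z : R2} (hz : z ∈ ball (0 : R2) 3) :
    0 < area (fun w => Z (d.par w)) z ∧ 0 < bendSq (fun w => Z (d.par w)) z := by
  obtain ⟨j, -, hj⟩ := Finset.exists_ne_zero_of_sum_ne_zero
    (by rw [𝒜.weight_sum (d.par z)]; exact one_ne_zero : (∑ j, 𝒜.weight j (d.par z)) ≠ 0)
  set e := Disc.ofAtlas 𝒜 j with he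
  have hov : z ∈ e.ov d := ⟨hz, (𝒜.weight_supp j (subset_tsupport _ hj)).1⟩
  set f : R2 → V4 := fun w => Z (e.par w) with hf
  have heq : (fun w => Z (d.par w)) =ᶠ[𝓝 z] f ∘ e.trans d := by
    filter_upwards [(e.isOpen_ov d).mem_nhds hov] with w hw
    simp only [hf, Function.comp_apply, Disc.trans]
    rw [e.par_inv _ hw.2]
  obtain ⟨ha, hs⟩ := hZp j _ (e.trans_mem d hov)
  have hfs : ContDiffAt ℝ 2 f (e.trans d z) :=
    ((read_smooth e hZ).contDiffAt (isOpen_ball.mem_nhds (e.trans_mem d hov))).of_le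
      (by norm_cast)
  have hτ : ContDiffAt ℝ 2 (e.trans d) z := (e.contDiffAt_trans d hov).of_le (by norm_cast)
  have hdet := e.det_ne d hov
  refine ⟨?_, ?_⟩
  · rw [area_congr heq, area_comp (hfs.differentiableAt (by norm_num))
      (hτ.differentiableAt (by norm_num))]
    exact mul_pos (by positivity) ha
  · rw [bend_congr heq, bendSq, sff_comp hfs hτ ha.ne' hdet]
    refine ip_self_pos (hs _ fun h0 => hdet ?_)
    simp [det2, h0]

/-- The state before the first disc. -/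
theorem St.init [T2Space M] (Q : Palette h H χ)
    (𝒜 : Iter.Atlas (E := R2) (I := 𝓘(ℝ, R2)) (M := M)) {Z : M → V4}
    (hZ : ContMDiff 𝓘(ℝ, R2) 𝓘(ℝ, V4) ∞ Z)
    (hZp : ∀ j, ∀ z ∈ ball (0 : R2) 3, 0 < area (fun w => Z (𝒜.par j w)) z ∧
      ∀ a : R2, a ≠ 0 → sff (fun w => Z (𝒜.par j w)) z a a ≠ 0) :
    ∃ C : ℕ → ℝ, ∀ ε K : ℝ, 0 ≤ ε → 1 ≤ K → St Q 𝒜 Z 0 C ε K Z := by
  choose BP hBP1 hBP using fun c : Fin Q.n =>
    exists_derivBound isOpen_ball (read_smooth (Q.disc c) hZ) (Q.disc c).S_compact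
      (Q.disc c).S_sub
  choose BA hBA1 hBA using fun j : 𝒜.ι =>
    exists_derivBound isOpen_ball (read_smooth (Disc.ofAtlas 𝒜 j) hZ)
      (Disc.ofAtlas 𝒜 j).S_compact (Disc.ofAtlas 𝒜 j).S_sub
  have hp := fun c => fun z hz => pos_of_atlas 𝒜 hZ hZp (Q.disc c) (z := z) hz
  have hc := fun c : Fin Q.n => continuousOn_bend isOpen_ball (read_smooth (Q.disc c) hZ)
    fun z hz => (hp c z hz).1.ne'
  choose a ha0 ha using fun c : Fin Q.n => exists_inv_bound (Q.disc c).S_compact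
    ((contDiffOn_area isOpen_ball (read_smooth (Q.disc c) hZ)).continuousOn.mono
      (Q.disc c).S_sub) fun z hz => (hp c z ((Q.disc c).S_sub hz)).1
  choose b hb0 hb using fun c : Fin Q.n => exists_inv_bound (Q.disc c).S_compact
    ((hc c).1.mono (Q.disc c).S_sub) fun z hz => (hp c z ((Q.disc c).S_sub hz)).2
  have hsec : ∀ j, ∀ z ∈ (Disc.ofAtlas 𝒜 j).S, 0 < sffSq (fun w => Z (𝒜.par j w)) z :=
    fun j z hz => by
      have h1 : (pt 1 0 : R2) ≠ 0 := fun h => by
        have := congrArg (fun v : R2 => v 0) h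
        simp [pt] at this
      have h2 := ip_self_pos ((hZp j z ((Disc.ofAtlas 𝒜 j).S_sub hz)).2 _ h1)
      have h3 := Legal.ip_self_nonneg (sff (fun w => Z (𝒜.par j w)) z (pt 1 0) (pt 0 1))
      have h4 := Legal.ip_self_nonneg (sff (fun w => Z (𝒜.par j w)) z (pt 0 1) (pt 0 1))
      simp only [sffSq]
      positivity
  choose s hs0 hs using fun j : 𝒜.ι => exists_inv_bound (Disc.ofAtlas 𝒜 j).S_compact
    ((continuousOn_bend isOpen_ball (read_smooth (Disc.ofAtlas 𝒜 j) hZ)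
      fun z hz => (hZp j z hz).1.ne').2.mono (Disc.ofAtlas 𝒜 j).S_sub) (hsec j)
  set C : ℕ → ℝ := fun i =>
    ∑ c, BP c i + ∑ j, BA j i + ∑ c, a c + ∑ c, b c + ∑ j, s j with hC
  have hn : ∀ i, (∀ c, BP c i ≤ C i) ∧ (∀ j, BA j i ≤ C i) ∧ (∀ c, a c ≤ C i) ∧
      (∀ c, b c ≤ C i) ∧ (∀ j, s j ≤ C i) ∧ 0 ≤ C i := fun i => by
    have h1 : 0 ≤ ∑ c, BP c i := Finset.sum_nonneg fun c _ => zero_le_one.trans (hBP1 c i)
    have h2 : 0 ≤ ∑ j, BA j i := Finset.sum_nonneg fun j _ => zero_le_one.trans (hBA1 j i)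
    have h3 : 0 ≤ ∑ c, a c := Finset.sum_nonneg fun c _ => ha0 c
    have h4 : 0 ≤ ∑ c, b c := Finset.sum_nonneg fun c _ => hb0 c
    have h5 : 0 ≤ ∑ j, s j := Finset.sum_nonneg fun j _ => hs0 j
    refine ⟨fun c => ?_, fun j => ?_, fun c => ?_, fun c => ?_, fun j => ?_, by positivity⟩
    · have := Finset.single_le_sum (f := fun c => BP c i)
        (fun c _ => zero_le_one.trans (hBP1 c i)) (Finset.mem_univ c)
      simp only [hC]; linarith
    · have := Finset.single_le_sum (f := fun j => BA j i)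
        (fun j _ => zero_le_one.trans (hBA1 j i)) (Finset.mem_univ j)
      simp only [hC]; linarith
    · have := Finset.single_le_sum (f := a) (fun c _ => ha0 c) (Finset.mem_univ c)
      simp only [hC]; linarith
    · have := Finset.single_le_sum (f := b) (fun c _ => hb0 c) (Finset.mem_univ c)
      simp only [hC]; linarith
    · have := Finset.single_le_sum (f := s) (fun j _ => hs0 j) (Finset.mem_univ j)
      simp only [hC]; linarith
  have low : ∀ {v t K : ℝ}, t ≤ C 0 → 0 < v → 1 ≤ K → 1 ≤ t * v → 1 ≤ C 0 * K * v :=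
    fun ht hv hK h1 => h1.trans (mul_le_mul_of_nonneg_right
      (ht.trans (le_mul_of_one_le_right (hn 0).2.2.2.2.2 hK)) hv.le)
  refine ⟨C, fun ε K hε hK => ?_⟩
  have hres : ∀ j : 𝒜.ι, resid Q Z 0 Z (Disc.ofAtlas 𝒜 j) = fun _ => 0 := fun j => by
    funext z
    simp [resid, Q.part_zero]
  refine ⟨hZ, fun c i z hz => ?_, fun j i z hz => ?_, fun c z hz => ?_, fun c z hz => hp c z hz,
    fun j z hz => ?_, fun j => ?_, fun j i z hz => ?_⟩
  · exact ((hBP c i i le_rfl z hz).trans ((hn i).1 c)).trans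
      (le_mul_of_one_le_right (hn i).2.2.2.2.2 (one_le_pow₀ hK))
  · exact ((hBA j i i le_rfl z hz).trans ((hn i).2.1 j)).trans
      (le_mul_of_one_le_right (hn i).2.2.2.2.2 (one_le_pow₀ hK))
  · obtain ⟨p1, p2⟩ := hp c z ((Q.disc c).S_sub hz)
    exact ⟨low ((hn 0).2.2.1 c) p1 hK (ha c z hz), low ((hn 0).2.2.2.1 c) p2 hK (hb c z hz)⟩
  · exact low ((hn 0).2.2.2.2.1 j) (hsec j z hz) hK (hs j z hz)
  · rw [hres j]
    exact contDiffOn_const
  · have hKp : (0 : ℝ) ≤ K ^ i := pow_nonneg (zero_le_one.trans hK) i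
    rw [hres j, iteratedFDeriv_fun_zero]
    simpa using mul_nonneg (mul_nonneg (hn i).2.2.2.2.2 hε) hKp

end Vale.Agent.P205
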