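import Vale.Agent.P205.Legal.Gauss
import Vale.Agent.P205.Assembly.MForm
import Mathlib.Geometry.Manifold.MFDeriv.SpecificFunctions

/-!
How the induced metric, the second fundamental form and the components of a tensor change under a
change of chart.
-/

noncomputable section

open Set Real Filter
open scoped ContDiff Manifold Topology

namespace Vale.Agent.P205

open Wave (V4 ip D gram2 lift2)

/-- Components of the pulled back tensor. -/
def pullSym (L : R2 →L[ℝ] R2) (T : Sym2) : Sym2 :=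
  ![qf T (L (pt 1 0)) (L (pt 1 0)), qf T (L (pt 1 0)) (L (pt 0 1)),
    qf T (L (pt 0 1)) (L (pt 0 1))]

/-- The determinant of a linear map of the plane. -/
def det2 (L : R2 →L[ℝ] R2) : ℝ :=
  L (pt 1 0) 0 * L (pt 0 1) 1 - L (pt 1 0) 1 * L (pt 0 1) 0

theorem D_coord {F : Type} [NormedAddCommGroup F] [NormedSpace ℝ F] (f : R2 → F) (z v : R2) :
    D v f z = v 0 • D (pt 1 0) f z + v 1 • D (pt 0 1) f z := by
  conv_lhs => rw [Legal.coord_pt v]
  simp only [D, map_add, map_smul]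

theorem qf_met (X : R2 → V4) (z a b : R2) : qf (met X z) a b = ip (D a X z) (D b X z) := by
  rw [D_coord X z a, D_coord X z b]
  simp only [qf, met, Matrix.cons_val_zero, Matrix.cons_val_one, Matrix.cons_val_two,
    Matrix.tail_cons, Matrix.head_cons, Wave.ip_add_left, Wave.ip_add_right, Wave.ip_smul_left,
    Wave.ip_smul_right, Wave.ip_comm (D (pt 0 1) X z) (D (pt 1 0) X z)]
  ring

theorem qf_add (S T : Sym2) (a b : R2) : qf (S + T) a b = qf S a b + qf T a b := by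
  simp only [qf, Pi.add_apply]; ring

theorem qf_sub (S T : Sym2) (a b : R2) : qf (S - T) a b = qf S a b - qf T a b := by
  simp only [qf, Pi.sub_apply]; ring

theorem qf_smul (r : ℝ) (T : Sym2) (a b : R2) : qf (r • T) a b = r * qf T a b := by
  simp only [qf, Pi.smul_apply, smul_eq_mul]; ring

theorem pullSym_add (L : R2 →L[ℝ] R2) (S T : Sym2) :
    pullSym L (S + T) = pullSym L S + pullSym L T := by
  funext i; fin_cases i <;> simp [pullSym, qf_add]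

theorem pullSym_sub (L : R2 →L[ℝ] R2) (S T : Sym2) :
    pullSym L (S - T) = pullSym L S - pullSym L T := by
  funext i; fin_cases i <;> simp [pullSym, qf_sub]

theorem pullSym_smul (L : R2 →L[ℝ] R2) (r : ℝ) (T : Sym2) :
    pullSym L (r • T) = r • pullSym L T := by
  funext i; fin_cases i <;> simp [pullSym, qf_smul]

theorem fderiv_comp_apply {F : Type} [NormedAddCommGroup F] [NormedSpace ℝ F] {X : R2 → F}
    {τ : R2 → R2} {z : R2} (hX : DifferentiableAt ℝ X (τ z)) (hτ : DifferentiableAt ℝ τ z)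
    (a : R2) : D a (X ∘ τ) z = D (fderiv ℝ τ z a) X (τ z) := by
  simp only [D, fderiv_comp z hX hτ, ContinuousLinearMap.comp_apply]

theorem met_comp {X : R2 → V4} {τ : R2 → R2} {z : R2} (hX : DifferentiableAt ℝ X (τ z))
    (hτ : DifferentiableAt ℝ τ z) : met (X ∘ τ) z = pullSym (fderiv ℝ τ z) (met X (τ z)) := by
  conv_rhs => rw [pullSym, qf_met, qf_met, qf_met]
  simp only [met, fderiv_comp_apply hX hτ]

theorem area_comp {X : R2 → V4} {τ : R2 → R2} {z : R2} (hX : DifferentiableAt ℝ X (τ z))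
    (hτ : DifferentiableAt ℝ τ z) :
    area (X ∘ τ) z = det2 (fderiv ℝ τ z) ^ 2 * area X (τ z) := by
  simp only [area, fderiv_comp_apply hX hτ, D_coord X (τ z) (fderiv ℝ τ z (pt 1 0)),
    D_coord X (τ z) (fderiv ℝ τ z (pt 0 1))]
  rw [Legal.gram2_comb]
  rfl

theorem sff_comp {X : R2 → V4} {τ : R2 → R2} {z : R2} (hX : ContDiffAt ℝ 2 X (τ z))
    (hτ : ContDiffAt ℝ 2 τ z) (hA : area X (τ z) ≠ 0) (hd : det2 (fderiv ℝ τ z) ≠ 0) (a b : R2) :
    sff (X ∘ τ) z a b = sff X (τ z) (fderiv ℝ τ z a) (fderiv ℝ τ z b) := by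
  have hX1 : DifferentiableAt ℝ X (τ z) := hX.differentiableAt (by norm_num)
  have hτ1 : DifferentiableAt ℝ τ z := hτ.differentiableAt (by norm_num)
  have hDX : DifferentiableAt ℝ (fderiv ℝ X) (τ z) :=
    (hX.fderiv_right (m := 1) (by norm_num)).differentiableAt (by norm_num)
  have hDτ : DifferentiableAt ℝ (fderiv ℝ τ) z :=
    (hτ.fderiv_right (m := 1) (by norm_num)).differentiableAt (by norm_num)
  have evX : ∀ᶠ w in 𝓝 z, DifferentiableAt ℝ X (τ w) :=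
    hτ1.continuousAt.eventually ((hX.eventually (by simp)).mono fun x hx =>
      hx.differentiableAt (by norm_num))
  have evτ : ∀ᶠ w in 𝓝 z, DifferentiableAt ℝ τ w :=
    (hτ.eventually (by simp)).mono fun x hx => hx.differentiableAt (by norm_num)
  have e : D b (X ∘ τ) =ᶠ[𝓝 z] fun w => fderiv ℝ X (τ w) (fderiv ℝ τ w b) := by
    filter_upwards [evX, evτ] with w h1 h2
    exact fderiv_comp_apply h1 h2 b
  have h1 : HasFDerivAt (fun w => fderiv ℝ X (τ w)) _ z :=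
    hDX.hasFDerivAt.comp z hτ1.hasFDerivAt
  have h2 : HasFDerivAt (fun w => fderiv ℝ τ w b) _ z :=
    hDτ.hasFDerivAt.clm_apply (hasFDerivAt_const b z)
  have h3 := h1.clm_apply h2
  have key : D a (D b (X ∘ τ)) z = fderiv ℝ X (τ z) (fderiv ℝ (fderiv ℝ τ) z a b) +
      D (fderiv ℝ τ z a) (D (fderiv ℝ τ z b) X) (τ z) := by
    have hc : D (fderiv ℝ τ z a) (D (fderiv ℝ τ z b) X) (τ z) =
        fderiv ℝ (fderiv ℝ X) (τ z) (fderiv ℝ τ z a) (fderiv ℝ τ z b) := by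
      have h4 : HasFDerivAt (fun y => fderiv ℝ X y (fderiv ℝ τ z b)) _ (τ z) :=
        hDX.hasFDerivAt.clm_apply (hasFDerivAt_const (fderiv ℝ τ z b) (τ z))
      show fderiv ℝ (fun y => fderiv ℝ X y (fderiv ℝ τ z b)) (τ z) (fderiv ℝ τ z a) = _
      rw [h4.fderiv]
      simp
    rw [hc]
    simp only [D]
    rw [e.fderiv_eq, h3.fderiv]
    simp
  have hg : gram2 (D (pt 1 0) X (τ z)) (D (pt 0 1) X (τ z)) ≠ 0 := hA
  simp only [sff, key, fderiv_comp_apply hX1 hτ1, D_coord X (τ z) (fderiv ℝ τ z (pt 1 0)),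
    D_coord X (τ z) (fderiv ℝ τ z (pt 0 1))]
  rw [Legal.perp2_basis hg hd, Legal.perp2_add]
  have e2 : fderiv ℝ X (τ z) (fderiv ℝ (fderiv ℝ τ) z a b) =
      (fderiv ℝ (fderiv ℝ τ) z a b) 0 • D (pt 1 0) X (τ z) +
        (fderiv ℝ (fderiv ℝ τ) z a b) 1 • D (pt 0 1) X (τ z) :=
    D_coord X (τ z) (fderiv ℝ (fderiv ℝ τ) z a b)
  have e3 : ∀ α β : ℝ, perp2 (D (pt 1 0) X (τ z)) (D (pt 0 1) X (τ z))
      (α • D (pt 1 0) X (τ z) + β • D (pt 0 1) X (τ z)) = 0 := fun α β => by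
    set p := D (pt 1 0) X (τ z)
    set q := D (pt 0 1) X (τ z)
    have hgr : ip p p * ip q q - ip p q ^ 2 ≠ 0 := hg
    simp only [perp2, lift2, Wave.ip_add_right, Wave.ip_smul_right, Wave.ip_comm q p, gram2]
    rw [sub_eq_zero]
    congr 1 <;> congr 1 <;> rw [eq_div_iff hgr] <;> ring
  rw [e2, e3, zero_add]

theorem bend_comp {X : R2 → V4} {τ : R2 → R2} {z : R2} (hX : ContDiffAt ℝ 2 X (τ z))
    (hτ : ContDiffAt ℝ 2 τ z) (hA : area X (τ z) ≠ 0) (hd : det2 (fderiv ℝ τ z) ≠ 0)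
    (h0 : fderiv ℝ τ z (pt 0 1) 0 = 0) :
    bendSq (X ∘ τ) z = (fderiv ℝ τ z (pt 0 1) 1) ^ 4 * bendSq X (τ z) := by
  rw [bendSq, sff_comp hX hτ hA hd, Legal.sff_comb hX, h0]
  simp [bendSq, Wave.ip_smul_left, Wave.ip_smul_right]
  ring

/-- Any normal curvature is bounded by `sffSq`. -/
theorem bend_le_sffSq {X : R2 → V4} {z : R2} (hX : ContDiffAt ℝ 2 X z) (a : R2) :
    ip (sff X z a a) (sff X z a a) ≤ (a 0 ^ 2 + a 1 ^ 2) ^ 2 * sffSq X z := by
  have h := Legal.sff_le hX a a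
  have h0 : 0 ≤ (a 0 ^ 2 + a 1 ^ 2) * (a 0 ^ 2 + a 1 ^ 2) * sffSq X z := by
    refine mul_nonneg (by positivity) ?_
    simp only [sffSq]
    have := Legal.ip_self_nonneg (sff X z (pt 1 0) (pt 1 0))
    have := Legal.ip_self_nonneg (sff X z (pt 1 0) (pt 0 1))
    have := Legal.ip_self_nonneg (sff X z (pt 0 1) (pt 0 1))
    positivity
  rw [← Legal.len_sq, sq (a 0 ^ 2 + a 1 ^ 2), ← Real.sq_sqrt h0]
  exact pow_le_pow_left₀ (Legal.len_nonneg _) h 2

section manifold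

variable {M : Type} [TopologicalSpace M] [ChartedSpace R2 M]

theorem chartForm_comp (g : MForm M) {ψ : R2 → M} {τ : R2 → R2} {ψ' : R2 → M} {z : R2}
    (he : ψ' =ᶠ[𝓝 z] fun w => ψ (τ w)) (hψ : MDifferentiableAt 𝓘(ℝ, R2) 𝓘(ℝ, R2) ψ (τ z))
    (hτ : DifferentiableAt ℝ τ z) (hs : ∀ v w, g (ψ (τ z)) v w = g (ψ (τ z)) w v) :
    chartForm g ψ' z = pullSym (fderiv ℝ τ z) (chartForm g ψ (τ z)) := by
  have hz : ψ' z = ψ (τ z) := he.eq_of_nhds
  set A : R2 →L[ℝ] R2 := mfderiv 𝓘(ℝ, R2) 𝓘(ℝ, R2) ψ (τ z) with hAdef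
  let B : R2 →L[ℝ] R2 →L[ℝ] ℝ := g (ψ (τ z))
  have hm : ∀ v, mfderiv 𝓘(ℝ, R2) 𝓘(ℝ, R2) ψ' z v = A (fderiv ℝ τ z v) := fun v => by
    rw [he.mfderiv_eq, show (fun w => ψ (τ w)) = ψ ∘ τ from rfl,
      mfderiv_comp z hψ hτ.mdifferentiableAt, mfderiv_eq_fderiv]
    rfl
  have hq : ∀ a b : R2, qf (chartForm g ψ (τ z)) a b = B (A a) (A b) := fun a b => by
    conv_rhs => rw [Legal.coord_pt a, Legal.coord_pt b]
    simp only [map_add, map_smul, add_apply, smul_apply, smul_eq_mul]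
    have hsw : B (A (pt 0 1)) (A (pt 1 0)) = B (A (pt 1 0)) (A (pt 0 1)) := hs _ _
    rw [hsw]
    simp only [qf, chartForm, Matrix.cons_val_zero, Matrix.cons_val_one, Matrix.cons_val_two,
      Matrix.tail_cons, Matrix.head_cons]
    change B (A (pt 1 0)) (A (pt 1 0)) * (a 0 * b 0) +
      B (A (pt 1 0)) (A (pt 0 1)) * (a 0 * b 1 + a 1 * b 0) +
        B (A (pt 0 1)) (A (pt 0 1)) * (a 1 * b 1) = _
    ring
  have hG : ∀ v w : R2, (g (ψ' z) : R2 →L[ℝ] R2 →L[ℝ] ℝ) (mfderiv 𝓘(ℝ, R2) 𝓘(ℝ, R2) ψ' z v)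
      (mfderiv 𝓘(ℝ, R2) 𝓘(ℝ, R2) ψ' z w) = B (A (fderiv ℝ τ z v)) (A (fderiv ℝ τ z w)) :=
    fun v w => by
      let G : M → (R2 →L[ℝ] R2 →L[ℝ] ℝ) := fun p => g p
      change G (ψ' z) (mfderiv 𝓘(ℝ, R2) 𝓘(ℝ, R2) ψ' z v) (mfderiv 𝓘(ℝ, R2) 𝓘(ℝ, R2) ψ' z w) = _
      rw [hm v, hm w, hz]
  funext i
  simp only [pullSym, hq]
  fin_cases i
  · exact hG _ _
  · exact hG _ _
  · exact hG _ _

end manifold

end Vale.Agent.P205
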