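import Vale.Agent.P205.Assembly.Palette
import Vale.Agent.P205.Assembly.Adapted
import Vale.Agent.P205.Assembly.Change
import Vale.Agent.P205.Assembly.Flat

/-!
A finite palette of adapted discs for a deficit `χ² • H`: around each point of the support of `χ`
a disc in which `h` is affine in `x` and `H` is close to a multiple of `(1, 0, 1/2)`, with flat
weights whose squares add up to one on that support.
-/

noncomputable section

open Set Metric Filter Function
open scoped ContDiff Manifold Topology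

namespace Vale.Agent.P205

namespace Colours

/-- The tensor filled by the three waves, in components. -/
theorem trioForm_eq (β : Fin 3 → R2 → ℝ) (z : R2) :
    trioForm β z = ![β 0 z + β 1 z + β 2 z, β 1 z - β 2 z, β 1 z + β 2 z] := by
  funext i
  fin_cases i <;> simp [trioForm, sqForm] <;> ring

/-- The three coefficients of `T / d`. -/
def coef (T : Sym2) (d : ℝ) : Fin 3 → ℝ :=
  ![(T 0 - T 2) / d, (T 2 + T 1) / (2 * d), (T 2 - T 1) / (2 * d)]

theorem coef_spec (T : R2 → Sym2) {d : ℝ} (hd : d ≠ 0) (z : R2) :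
    d • trioForm (fun j y => coef (T y) d j) z = T z := by
  rw [trioForm_eq]
  funext i
  fin_cases i <;> simp [coef] <;> field_simp <;> ring

theorem coef_smooth {T : R2 → Sym2} {Ω : Set R2} (hT : ContDiffOn ℝ ∞ T Ω) (d : ℝ) (j : Fin 3) :
    ContDiffOn ℝ ∞ (fun z => coef (T z) d j) Ω := by
  have h := contDiffOn_pi.1 hT
  fin_cases j
  · exact ((h 0).sub (h 2)).div_const d
  · exact ((h 2).add (h 1)).div_const (2 * d)
  · exact ((h 2).sub (h 1)).div_const (2 * d)

/-- Flatness is local on a compact set. -/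
theorem flat_local {S : Set R2} (hS : IsCompact S) {f : R2 → ℝ}
    (h : ∀ z ∈ S, ∃ N ∈ 𝓝 z, ∃ C, Flat (S ∩ N) C 1 f) : ∃ C, Flat S C 1 f := by
  choose! N hN C hC using h
  obtain ⟨t, htS, ht⟩ := hS.elim_nhds_subcover N hN
  refine ⟨fun i d => ∑ x ∈ t, |C x i d|, fun z hz => ?_⟩
  obtain ⟨x, hxt, hzx⟩ := mem_iUnion₂.1 (ht hz)
  have hF := hC x (htS x hxt) z ⟨hz, hzx⟩
  refine ⟨hF.1, fun i d => (hF.2 i d).trans (mul_le_mul_of_nonneg_right ?_ (pow_nonneg hF.1 d))⟩
  simp only [one_pow, mul_one]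
  refine (le_abs_self _).trans ?_
  rw [abs_pow]
  exact pow_le_pow_left₀ (abs_nonneg _)
    (Finset.single_le_sum (f := fun x => |C x i d|) (fun y _ => abs_nonneg _) hxt) _

variable {M : Type} [TopologicalSpace M] [ChartedSpace R2 M]

/-- A function of the disc coordinates carried to the surface. -/
def carry (d : Disc M) (Y : R2 → ℝ) (p : M) : ℝ :=
  open Classical in if p ∈ d.src then Y (d.inv p) else 0

theorem carry_par (d : Disc M) (Y : R2 → ℝ) {z : R2} (hz : z ∈ ball (0 : R2) 3) :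
    carry d Y (d.par z) = Y z := by
  rw [carry, if_pos (d.par_mem hz), d.inv_par z hz]

theorem carry_smooth [T2Space M] (d : Disc M) {Y : R2 → ℝ} (hY : ContDiff ℝ ∞ Y)
    (hs : support Y ⊆ closedBall 0 d.r) : ContMDiff 𝓘(ℝ, R2) 𝓘(ℝ) ∞ (carry d Y) := by
  intro p
  have hr : closedBall (0 : R2) d.r ⊆ ball 0 3 := closedBall_subset_ball d.r_lt
  by_cases hp : p ∈ d.src
  · exact (hY.contMDiff.contMDiffAt.comp p
      (d.inv_smooth.contMDiffAt (d.src_open.mem_nhds hp))).congr_of_eventuallyEq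
      (eventually_of_mem (d.src_open.mem_nhds hp) fun y hy => by rw [carry, if_pos hy]; rfl)
  · have hK : IsClosed (d.par '' closedBall 0 d.r) :=
      ((isCompact_closedBall 0 d.r).image_of_continuousOn
        (d.par_smooth.continuousOn.mono hr)).isClosed
    have hpK : p ∉ d.par '' closedBall 0 d.r := by
      rintro ⟨z, hz, rfl⟩
      exact hp (d.par_mem (hr hz))
    refine (contMDiffAt_const (c := (0 : ℝ))).congr_of_eventuallyEq ?_
    refine eventually_of_mem (hK.isOpen_compl.mem_nhds hpK) fun y hy => ?_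
    simp only [carry]
    split_ifs with h
    · exact notMem_support.1 fun h0 => hy ⟨_, hs h0, d.par_inv y h⟩
    · rfl

variable [IsManifold 𝓘(ℝ, R2) ∞ M] [CompactSpace M] [T2Space M]

omit [CompactSpace M] [T2Space M] [IsManifold 𝓘(ℝ, R2) ∞ M] in
theorem exists_atlas_chart (𝒜 : Iter.Atlas (E := R2) (I := 𝓘(ℝ, R2)) (M := M)) (p : M) :
    ∃ j, p ∈ 𝒜.src j ∧ 𝒜.inv j p ∈ ball (0 : R2) 1 := by
  obtain ⟨j, -, hj⟩ := Finset.exists_ne_zero_of_sum_ne_zero
    (by rw [𝒜.weight_sum p]; exact one_ne_zero : (∑ j, 𝒜.weight j p) ≠ 0)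
  exact ⟨j, 𝒜.weight_supp j (subset_tsupport _ hj)⟩

omit [CompactSpace M] [T2Space M] [IsManifold 𝓘(ℝ, R2) ∞ M] in
/-- Smooth components in the atlas give smooth components in any parametrised disc. -/
theorem chartForm_smooth (𝒜 : Iter.Atlas (E := R2) (I := 𝓘(ℝ, R2)) (M := M)) (H : MForm M)
    (hsym : ∀ p v w, H p v w = H p w v)
    (hH : ∀ j, ContDiffOn ℝ ∞ (chartForm H (𝒜.par j)) (ball 0 3)) {ψ : R2 → M}
    (hψ : ContMDiffOn 𝓘(ℝ, R2) 𝓘(ℝ, R2) ∞ ψ (ball 0 3)) :
    ContDiffOn ℝ ∞ (chartForm H ψ) (ball 0 3) := by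
  intro z hz
  obtain ⟨j, hj, hj1⟩ := exists_atlas_chart 𝒜 (ψ z)
  set O := ball (0 : R2) 3 ∩ ψ ⁻¹' 𝒜.src j with hO
  have hOo : IsOpen O := hψ.continuousOn.isOpen_inter_preimage isOpen_ball (𝒜.src_open j)
  set τ : R2 → R2 := fun y => 𝒜.inv j (ψ y) with hτdef
  have hτ : ContDiffOn ℝ ∞ τ O :=
    ((𝒜.inv_smooth j).comp (hψ.mono inter_subset_left) fun y hy => hy.2).contDiffOn
  have hτ3 : MapsTo τ O (ball 0 3) := fun y hy => 𝒜.inv_mem j hy.2
  have key : ∀ y ∈ O, chartForm H ψ y =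
      pullSym (fderiv ℝ τ y) (chartForm H (𝒜.par j) (τ y)) := by
    intro y hy
    refine chartForm_comp H ?_ ?_ ((hτ.differentiableOn (by simp)).differentiableAt
      (hOo.mem_nhds hy)) fun v w => hsym _ v w
    · exact eventually_of_mem (hOo.mem_nhds hy) fun x hx => (𝒜.par_inv j _ hx.2).symm
    · exact ((𝒜.par_smooth j).contMDiffAt (isOpen_ball.mem_nhds (hτ3 hy))).mdifferentiableAt
        (by simp)
  have hG : ContDiffOn ℝ ∞ (fun y => chartForm H (𝒜.par j) (τ y)) O := (hH j).comp hτ hτ3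
  have hL : ∀ (v : R2) (k : Fin 2), ContDiffOn ℝ ∞ (fun y => fderiv ℝ τ y v k) O := fun v k =>
    (EuclideanSpace.proj (𝕜 := ℝ) k).contDiff.comp_contDiffOn
      ((hτ.fderiv_of_isOpen hOo le_rfl).clm_apply contDiffOn_const)
  have hq : ∀ a b : R2, ContDiffOn ℝ ∞
      (fun y => qf (chartForm H (𝒜.par j) (τ y)) (fderiv ℝ τ y a) (fderiv ℝ τ y b)) O := by
    intro a b
    have g := contDiffOn_pi.1 hG
    exact (((g 0).mul ((hL a 0).mul (hL b 0))).add
      ((g 1).mul (((hL a 0).mul (hL b 1)).add ((hL a 1).mul (hL b 0))))).add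
      ((g 2).mul ((hL a 1).mul (hL b 1)))
  have hP : ContDiffOn ℝ ∞
      (fun y => pullSym (fderiv ℝ τ y) (chartForm H (𝒜.par j) (τ y))) O := by
    refine contDiffOn_pi.2 fun i => ?_
    fin_cases i
    · exact hq _ _
    · exact hq _ _
    · exact hq _ _
  exact ((hP.congr key).contDiffAt (hOo.mem_nhds ⟨hz, hj⟩)).contDiffWithinAt

end Colours

open Colours

variable {M : Type} [TopologicalSpace M] [ChartedSpace R2 M] [IsManifold 𝓘(ℝ, R2) ∞ M]
  [CompactSpace M] [T2Space M]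

/-- **The palette.** A deficit `χ² • H` with `χ` flat and supported away from the critical points of
`h` splits into finitely many adapted discs. -/
theorem exists_palette (𝒜 : Iter.Atlas (E := R2) (I := 𝓘(ℝ, R2)) (M := M)) (h : M → ℝ)
    (hh : ContMDiff 𝓘(ℝ, R2) 𝓘(ℝ) ∞ h) (χ : M → ℝ) (hχ : ContMDiff 𝓘(ℝ, R2) 𝓘(ℝ) ∞ χ)
    (hcrit : ∀ p ∈ tsupport χ, mfderiv 𝓘(ℝ, R2) 𝓘(ℝ) h p ≠ 0) (H : MForm M)
    (hsym : ∀ p v w, H p v w = H p w v) (hpos : ∀ p ∈ tsupport χ, ∀ v, v ≠ 0 → 0 < H p v v)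
    (hH : ∀ j, ContDiffOn ℝ ∞ (chartForm H (𝒜.par j)) (ball 0 3))
    (hflat : ∀ j, ∃ C2, Flat (closedBall 0 2) C2 1 fun z => χ (𝒜.par j z)) :
    Nonempty (Palette h H χ) := by
  classical
  have hK : IsCompact (tsupport χ) := (isClosed_tsupport χ).isCompact
  have hloc : ∀ p : M, p ∈ tsupport χ → ∃ (D : Disc M) (c d : ℝ), c ≠ 0 ∧ 0 < d ∧ D.r < 2 ∧
      (∀ z ∈ ball (0 : R2) 3, h (D.par z) = h p + c * z 0) ∧ p ∈ D.src ∧ D.inv p = 0 ∧
      ∀ z ∈ D.S, ∀ j, coef (chartForm H D.par z) d j ∈ Icc (1 / 16 : ℝ) 16 := by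
    intro p hp
    obtain ⟨ψ, q, s, c, hs, hps, -, hc, hψ, hψs, hqs, hq, hqp, hqψ, hψq, d, hd, h0⟩ :=
      adapted_chart h hh p (hcrit p hp) H (hsym p) (hpos p hp) isOpen_univ (mem_univ p)
    have hT := chartForm_smooth 𝒜 H hsym hH hψ
    have hev : ∀ᶠ z in 𝓝 (0 : R2), ∀ j, coef (chartForm H ψ z) d j ∈ Icc (1 / 16 : ℝ) 16 := by
      refine eventually_all.2 fun j => ?_
      have hcont := ((coef_smooth hT d j).continuousOn.continuousAt
        (isOpen_ball.mem_nhds (mem_ball_self (by norm_num : (0 : ℝ) < 3))))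
      refine hcont.eventually (Icc_mem_nhds ?_ ?_) <;>
      · show (_ : ℝ) < _
        beta_reduce
        rw [h0]
        fin_cases j <;> simp [coef] <;> field_simp <;> norm_num
    obtain ⟨r, hr, hball⟩ := Metric.eventually_nhds_iff_ball.1 hev
    have hr' : 0 < min (r / 2) 1 := by positivity
    exact ⟨⟨ψ, q, s, min (r / 2) 1, hr', by linarith [min_le_right (r / 2) 1], hs, hψ, hψs,
      hqs, hq, fun z hz => (hqψ z hz).1, hψq⟩, c, d, hc, hd,
      by show min (r / 2) 1 < 2; linarith [min_le_right (r / 2) 1],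
      fun z hz => (hqψ z hz).2, hps, hqp, fun z hz => hball z (by
        rw [mem_ball, dist_zero_right]
        exact lt_of_le_of_lt (mem_closedBall_zero_iff.1 hz)
          (lt_of_le_of_lt (min_le_left _ _) (by linarith)))⟩
  have hloc' : ∀ p : M, ∃ (D : Disc M) (c d : ℝ), p ∈ tsupport χ → c ≠ 0 ∧ 0 < d ∧ D.r < 2 ∧
      (∀ z ∈ ball (0 : R2) 3, h (D.par z) = h p + c * z 0) ∧ p ∈ D.src ∧ D.inv p = 0 ∧
      ∀ z ∈ D.S, ∀ j, coef (chartForm H D.par z) d j ∈ Icc (1 / 16 : ℝ) 16 := by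
    intro p
    by_cases hp : p ∈ tsupport χ
    · obtain ⟨D, c, d, hD⟩ := hloc p hp
      exact ⟨D, c, d, fun _ => hD⟩
    · exact ⟨Disc.ofAtlas 𝒜 (exists_atlas_chart 𝒜 p).choose, 1, 1, fun h' => absurd h' hp⟩
  choose D sl d hD using hloc'
  have hsl : ∀ p ∈ tsupport χ, sl p ≠ 0 := fun p hp => (hD p hp).1
  have hd : ∀ p ∈ tsupport χ, 0 < d p := fun p hp => (hD p hp).2.1
  have hh0 : ∀ p ∈ tsupport χ, ∀ z ∈ ball (0 : R2) 3, h ((D p).par z) = h p + sl p * z 0 :=
    fun p hp => (hD p hp).2.2.2.1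
  have hps : ∀ p ∈ tsupport χ, p ∈ (D p).src := fun p hp => (hD p hp).2.2.2.2.1
  have hp0 : ∀ p ∈ tsupport χ, (D p).inv p = 0 := fun p hp => (hD p hp).2.2.2.2.2.1
  have hβ : ∀ p ∈ tsupport χ, ∀ z ∈ (D p).S, ∀ j,
      coef (chartForm H (D p).par z) (d p) j ∈ Icc (1 / 16 : ℝ) 16 := fun p hp => (hD p hp).2.2.2.2.2.2
  obtain ⟨t, htK, ht⟩ := hK.elim_nhds_subcover
    (fun p => (D p).src ∩ (D p).inv ⁻¹' ball 0 ((D p).r / 2)) fun p hp =>
    ((D p).inv_smooth.continuousOn.isOpen_inter_preimage (D p).src_open isOpen_ball).mem_nhds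
      ⟨hps p hp, by rw [mem_preimage, hp0 p hp]; exact mem_ball_self (by linarith [(D p).r_pos])⟩
  let φ : M → ContDiffBump (0 : R2) := fun p =>
    ⟨(D p).r / 2, (D p).r, by linarith [(D p).r_pos], by linarith [(D p).r_pos]⟩
  set v : M → M → ℝ := fun p => carry (D p) (fun z => expNegInvGlue (φ p z)) with hv
  have hvsupp : ∀ p, support (fun z => expNegInvGlue (φ p z)) ⊆ closedBall (0 : R2) (D p).r := by
    intro p z hz
    by_contra hzr
    refine hz ?_
    show expNegInvGlue (φ p z) = 0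
    rw [(φ p).zero_of_le_dist (not_le.1 fun h' => hzr (mem_closedBall.2 h')).le,
      expNegInvGlue.zero_of_nonpos le_rfl]
  have hvs : ∀ p, ContMDiff 𝓘(ℝ, R2) 𝓘(ℝ) ∞ (v p) := fun p =>
    carry_smooth (D p) (expNegInvGlue.contDiff.comp (φ p).contDiff) (hvsupp p)
  set W := ⋃ p ∈ t, (D p).src ∩ (D p).inv ⁻¹' ball 0 ((D p).r / 2) with hWdef
  have hWo : IsOpen W := isOpen_biUnion fun p _ =>
    (D p).inv_smooth.continuousOn.isOpen_inter_preimage (D p).src_open isOpen_ball
  obtain ⟨η, hη0, hη1, -⟩ := exists_contMDiffMap_zero_one_of_isClosed (I := 𝓘(ℝ, R2)) (n := ⊤)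
    (isClosed_tsupport χ) hWo.isClosed_compl (disjoint_compl_right_iff_subset.2 ht)
  set den : M → ℝ := fun y => ∑ p ∈ t, v p y ^ 2 + η y ^ 2 with hden
  have hden0 : ∀ y, 0 < den y := by
    intro y
    by_cases hy : y ∈ W
    · obtain ⟨p, hpt, hys, hyb⟩ := mem_iUnion₂.1 hy
      have h1 : 0 < v p y := by
        simp only [hv, carry, if_pos hys]
        exact expNegInvGlue.pos_of_pos ((φ p).pos_of_mem_ball
          (ball_subset_ball (show (D p).r / 2 ≤ (D p).r by linarith [(D p).r_pos]) hyb))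
      exact add_pos_of_pos_of_nonneg (lt_of_lt_of_le (by positivity)
        (Finset.single_le_sum (f := fun q => v q y ^ 2) (fun q _ => sq_nonneg _) hpt)) (sq_nonneg _)
    · have h1 : η y = 1 := hη1 hy
      have h2 := Finset.sum_nonneg fun q (_ : q ∈ t) => sq_nonneg (v q y)
      simp only [hden, h1]
      linarith
  set u : M → ℝ := fun y => (√(den y))⁻¹ with hu
  have hdens : ContMDiff 𝓘(ℝ, R2) 𝓘(ℝ) ∞ den :=
    (contMDiff_finsetSum fun p _ => (hvs p).pow 2).add (η.contMDiff.pow 2)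
  have hus : ContMDiff 𝓘(ℝ, R2) 𝓘(ℝ) ∞ u := fun y =>
    ((Real.contDiffAt_sqrt (hden0 y).ne').inv (Real.sqrt_pos.2 (hden0 y)).ne').comp_contMDiffAt
      hdens.contMDiffAt
  have hu0 : ∀ y, 0 < u y := fun y => inv_pos.2 (Real.sqrt_pos.2 (hden0 y))
  -- the cut-offs
  let ζ : M → ContDiffBump (0 : R2) := fun p =>
    ⟨((D p).r + 3) / 2, ((D p).r + 9) / 4, by linarith [(D p).r_pos], by
      linarith [(D p).r_lt]⟩
  set G1 : M → R2 → ℝ := fun p z => ζ p z * χ ((D p).par z) with hG1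
  set G3 : M → R2 → ℝ := fun p z => ζ p z * u ((D p).par z) + (1 - ζ p z) with hG3
  have hext : ∀ p (g : M → ℝ), ContMDiff 𝓘(ℝ, R2) 𝓘(ℝ) ∞ g →
      ContDiff ℝ ∞ fun z => ζ p z * g ((D p).par z) := by
    intro p g hg
    refine contDiff_iff_contDiffAt.2 fun z => ?_
    by_cases hz : z ∈ ball (0 : R2) 3
    · exact (ζ p).contDiffAt.mul
        (((hg.comp_contMDiffOn (D p).par_smooth).contDiffOn).contDiffAt (isOpen_ball.mem_nhds hz))
    · refine (contDiffAt_const (c := (0 : ℝ))).congr_of_eventuallyEq ?_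
      have hzc : z ∈ (closedBall (0 : R2) (((D p).r + 9) / 4))ᶜ := fun h' =>
        hz (closedBall_subset_ball (by linarith [(D p).r_lt]) h')
      refine eventually_of_mem (isClosed_closedBall.isOpen_compl.mem_nhds hzc) fun y hy => ?_
      show ζ p y * _ = 0
      rw [(ζ p).zero_of_le_dist (not_le.1 fun h' => hy (mem_closedBall.2 h')).le, zero_mul]
  have hG1s : ∀ p, ContDiff ℝ ∞ (G1 p) := fun p => hext p χ hχ
  have hG3s : ∀ p, ContDiff ℝ ∞ (G3 p) := fun p =>
    (hext p u hus).add (contDiff_const.sub (ζ p).contDiff)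
  have hG3p : ∀ p z, 0 < G3 p z := by
    intro p z
    have h1 := (ζ p).nonneg (x := z)
    have h2 := (ζ p).le_one (x := z)
    have h3 := hu0 ((D p).par z)
    rcases h2.lt_or_eq with h4 | h4
    · have : 0 ≤ ζ p z * u ((D p).par z) := mul_nonneg h1 h3.le
      simp only [hG3]
      linarith
    · simp only [hG3, h4]
      linarith
  have hflat1 : ∀ p ∈ t, ∃ C, Flat (D p).S C 1 (G1 p) := by
    intro p _
    have hS3 : (D p).S ⊆ ball (0 : R2) 3 := closedBall_subset_ball (D p).r_lt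
    suffices h' : ∃ C, Flat (D p).S C 1 (fun z => χ ((D p).par z)) by
      obtain ⟨C, hC⟩ := h'
      refine ⟨C, hC.congr_nhds fun z hz => ?_⟩
      refine eventually_of_mem (isOpen_ball.mem_nhds (show z ∈ ball (0 : R2) (((D p).r + 3) / 2)
        from closedBall_subset_ball (by linarith [(D p).r_lt]) hz)) fun y hy => ?_
      show ζ p y * _ = _
      rw [(ζ p).one_of_mem_closedBall (ball_subset_closedBall hy), one_mul]
    refine flat_local (isCompact_closedBall _ _) fun z hz => ?_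
    obtain ⟨j, hj, hj1⟩ := exists_atlas_chart 𝒜 ((D p).par z)
    set O := ball (0 : R2) 3 ∩ (D p).par ⁻¹' (𝒜.src j ∩ 𝒜.inv j ⁻¹' ball 0 1) with hO
    have hOo : IsOpen O := (D p).par_smooth.continuousOn.isOpen_inter_preimage isOpen_ball
      ((𝒜.inv_smooth j).continuousOn.isOpen_inter_preimage (𝒜.src_open j) isOpen_ball)
    obtain ⟨ε, hε, hεO⟩ := Metric.nhds_basis_closedBall.mem_iff.1
      (hOo.mem_nhds ⟨hS3 hz, hj, hj1⟩)
    refine ⟨closedBall z ε, closedBall_mem_nhds z hε, ?_⟩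
    obtain ⟨C2, hC2⟩ := hflat j
    obtain ⟨C', hC'⟩ := Flat.comp_exists hOo
      ((isCompact_closedBall (0 : R2) (D p).r).inter_right isClosed_closedBall)
      (fun y hy => hεO hy.2)
      (((𝒜.inv_smooth j).comp ((D p).par_smooth.mono inter_subset_left) fun y hy => hy.2.1).contDiffOn)
      le_rfl isOpen_ball ((hχ.comp_contMDiffOn (𝒜.par_smooth j)).contDiffOn)
      (fun y hy => ⟨ball_subset_closedBall (ball_subset_ball one_le_two (hεO hy.2).2.2),
        ball_subset_ball (by norm_num) (hεO hy.2).2.2⟩) hC2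
    refine ⟨C', hC'.congr_nhds fun y hy => ?_⟩
    exact eventually_of_mem (hOo.mem_nhds (hεO hy.2)) fun x hx => by
      show χ ((D p).par x) = χ (𝒜.par j (𝒜.inv j ((D p).par x)))
      rw [𝒜.par_inv j _ hx.2.1]
  set cut : M → R2 → ℝ := fun p z =>
    G3 p z * √(d p) * (G1 p z * expNegInvGlue (φ p z)) with hcut
  have hcutflat : ∀ p ∈ t, ∃ C, Flat (D p).S C 1 (cut p) := by
    intro p hp
    obtain ⟨C1, hC1⟩ := hflat1 p hp
    obtain ⟨C2, hC2⟩ := flat_expNegInvGlue isOpen_univ (isCompact_closedBall (0 : R2) (D p).r)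
      (subset_univ _) (φ p).contDiff.contDiffOn
    exact Flat.mul_pos_exists isOpen_univ (isCompact_closedBall (0 : R2) (D p).r) (subset_univ _)
      le_rfl ((hG1s p).mul (expNegInvGlue.contDiff.comp (φ p).contDiff)).contDiffOn
      ((hG3s p).mul contDiff_const).contDiffOn
      (fun z _ => mul_pos (hG3p p z) (Real.sqrt_pos.2 (hd p (htK p hp))))
      (Legal.flat_mul hC1 hC2 zero_le_one (hG1s p) (expNegInvGlue.contDiff.comp (φ p).contDiff))
  have hcutzero : ∀ p z, z ∉ (D p).S → cut p z = 0 := fun p z hz => by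
    have h0 : expNegInvGlue (φ p z) = 0 := notMem_support.1 fun h' => hz (hvsupp p h')
    simp [hcut, h0]
  set share : M → M → ℝ := fun p y => χ y * (v p y * u y) with hshare
  have hrel : ∀ p, ∀ z ∈ ball (0 : R2) 3, cut p z = share p ((D p).par z) * √(d p) := by
    intro p z hz
    simp only [hshare, hv, carry_par (D p) _ hz, hcut]
    by_cases hzS : z ∈ (D p).S
    · have h1 : ζ p z = 1 := (ζ p).one_of_mem_closedBall
        (closedBall_subset_closedBall (show (D p).r ≤ ((D p).r + 3) / 2 by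
          linarith [(D p).r_lt]) hzS)
      simp only [hG1, hG3, h1]
      ring
    · have h0 : expNegInvGlue (φ p z) = 0 := notMem_support.1 fun h' => hzS (hvsupp p h')
      simp [h0]
  set e := t.equivFin
  refine ⟨{
    n := t.card
    disc := fun c => D (e.symm c)
    h0 := fun c => h (e.symm c : M)
    slope := fun c => sl (e.symm c)
    slope_ne := fun c => hsl _ (htK _ (e.symm c).2)
    height := fun c => hh0 _ (htK _ (e.symm c).2)
    β := fun c j z => coef (chartForm H (D (e.symm c)).par z) (d (e.symm c)) j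
    β_smooth := fun c j => coef_smooth (chartForm_smooth 𝒜 H hsym hH (D _).par_smooth) _ j
    β_range := fun c j z hz => hβ _ (htK _ (e.symm c).2) z hz j
    cut := fun c => cut (e.symm c)
    cut_smooth := fun c => ((hG3s _).mul contDiff_const).mul
      ((hG1s _).mul (expNegInvGlue.contDiff.comp (φ _).contDiff))
    cut_supp := fun c => hcutzero _
    cut_flat := fun c => hcutflat _ (e.symm c).2
    share := fun c => share (e.symm c)
    share_supp := fun c y hy => ?_
    share_sum := fun y => ?_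
    fill := fun c z hz => ?_ }⟩
  · have h1 : v (e.symm c) y ≠ 0 := fun h' => hy (by simp [hshare, h'])
    simp only [hv, carry] at h1
    split_ifs at h1 with hs
    · exact ⟨_, hvsupp _ h1, (D _).par_inv y hs⟩
    · exact absurd rfl h1
  · rw [e.symm.sum_comp (fun p : t => share p y ^ 2), Finset.sum_coe_sort t fun p => share p y ^ 2]
    by_cases hy : χ y = 0
    · simp [hshare, hy]
    have hη : η y = 0 := hη0 (subset_tsupport _ hy)
    have hsq : u y ^ 2 = (den y)⁻¹ := by rw [hu, inv_pow, Real.sq_sqrt (hden0 y).le]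
    simp only [hshare, mul_pow, ← Finset.mul_sum, ← Finset.sum_mul, hsq]
    have hd' : den y = ∑ p ∈ t, v p y ^ 2 := by simp [hden, hη]
    rw [← hd', mul_inv_cancel₀ (hden0 y).ne', mul_one]
  · rw [hrel _ z hz, mul_pow, Real.sq_sqrt (hd _ (htK _ (e.symm c).2)).le, mul_smul,
      coef_spec (chartForm H (D (e.symm c)).par) (hd _ (htK _ (e.symm c).2)).ne' z]

end Vale.Agent.P205
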