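import Vale.Agent.P205.Assembly.Main
import Vale.Agent.P205.Global.Morse

/-!
Composition of the modules: every closed surface with a smooth metric is isometrically immersed.
-/

noncomputable section

open Set Metric
open scoped ContDiff Manifold Topology

namespace Vale.Agent.P205

open Wave (V4 ip D gram2)

variable {M : Type} [TopologicalSpace M] [ChartedSpace R2 M] [IsManifold 𝓘(ℝ, R2) ∞ M]
  [CompactSpace M] [T2Space M]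

omit [IsManifold 𝓘(ℝ, R2) ∞ M] [CompactSpace M] in
/-- An exact map from a starting map, the three waves and the iteration. -/
theorem exists_exact (hT : TrioProp) (𝒜 : Iter.Atlas (E := R2) (I := 𝓘(ℝ, R2)) (M := M))
    (hE : ∀ A : ℝ, 0 < A → ExactProp 𝒜 A) {h : M → ℝ} {H : MForm M} {χ : M → ℝ}
    (Q : Palette h H χ) (g : MForm M) (hsym : ∀ p v w, g p v w = g p w v)
    (hpos : ∀ p v, v ≠ 0 → 0 < g p v v) (hsymH : ∀ p v w, H p v w = H p w v)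
    (hg : ∀ j, ContDiffOn ℝ ∞ (chartForm g (𝒜.par j)) (ball 0 3))
    {Z : M → V4} (hZ : ContMDiff 𝓘(ℝ, R2) 𝓘(ℝ, V4) ∞ Z)
    (hfill : ∀ j, ∀ z ∈ ball (0 : R2) 3, chartForm g (𝒜.par j) z =
      met (fun w => Z (𝒜.par j w)) z + χ (𝒜.par j z) ^ 2 • chartForm H (𝒜.par j) z)
    (hZp : ∀ j, ∀ z ∈ ball (0 : R2) 3, 0 < area (fun w => Z (𝒜.par j w)) z ∧
      ∀ a : R2, a ≠ 0 → sff (fun w => Z (𝒜.par j w)) z a a ≠ 0) :
    ∃ Y : M → V4, ContMDiff 𝓘(ℝ, R2) 𝓘(ℝ, V4) ∞ Y ∧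
      ∀ p (v w : TangentSpace 𝓘(ℝ, R2) p),
        ip (mfderiv 𝓘(ℝ, R2) 𝓘(ℝ, V4) Y p v) (mfderiv 𝓘(ℝ, R2) 𝓘(ℝ, V4) Y p w) = g p v w := by
  obtain ⟨A, hA, hell⟩ := exists_ell 𝒜 g hsym hpos fun j =>
    (hg j).continuousOn.mono (closedBall_subset_ball (by norm_num))
  obtain ⟨m, hm⟩ := hE A hA
  obtain ⟨C, hC⟩ := exists_starts hT Q 𝒜 g hsym hsymH hg hell hZ hfill hZp m
  obtain ⟨K0, hK0⟩ := hm C
  obtain ⟨K, hK, X, hX⟩ := hC K0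
  obtain ⟨Y, hY, hiso, -⟩ := hK0 K hK g X hX
  exact ⟨Y, hY, hiso⟩

/-- The starting map, the palette and the Morse function give the isometric immersion. -/
theorem exists_isometric (hT : TrioProp)
    (hE : ∀ (𝒜 : Iter.Atlas (E := R2) (I := 𝓘(ℝ, R2)) (M := M)) (A : ℝ), 0 < A → ExactProp 𝒜 A)
    (hB : ∀ (𝒜 : Iter.Atlas (E := R2) (I := 𝓘(ℝ, R2)) (M := M)) (g : MForm M) (P : Finset M),
      (∀ p v w, g p v w = g p w v) → (∀ p v, v ≠ 0 → 0 < g p v v) →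
      (∀ (U : Set R2) (ψ : R2 → M), IsOpen U → ContMDiffOn 𝓘(ℝ, R2) 𝓘(ℝ, R2) ∞ ψ U →
        ContDiffOn ℝ ∞ (chartForm g ψ) U) → BaseProp 𝒜 g P)
    (hQ : ∀ (𝒜 : Iter.Atlas (E := R2) (I := 𝓘(ℝ, R2)) (M := M)) (h : M → ℝ) (H : MForm M)
      (χ : M → ℝ), ContMDiff 𝓘(ℝ, R2) 𝓘(ℝ) ∞ h →
      (∀ p ∈ tsupport χ, mfderiv 𝓘(ℝ, R2) 𝓘(ℝ) h p ≠ 0) →
      (∀ p v w, H p v w = H p w v) → (∀ p ∈ tsupport χ, ∀ v, v ≠ 0 → 0 < H p v v) →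
      (∀ j, ContDiffOn ℝ ∞ (chartForm H (𝒜.par j)) (ball 0 3)) →
      ContMDiff 𝓘(ℝ, R2) 𝓘(ℝ) ∞ χ → (∀ p, 0 ≤ χ p) →
      (∀ j, ∃ C2, Flat (closedBall 0 2) C2 1 fun z => χ (𝒜.par j z)) → Nonempty (Palette h H χ))
    (g : Bundle.ContMDiffRiemannianMetric 𝓘(ℝ, R2) ∞ R2
      (fun p : M => TangentSpace 𝓘(ℝ, R2) p)) :
    ∃ F : M → EuclideanSpace ℝ (Fin 4),
      ContMDiff 𝓘(ℝ, R2) 𝓘(ℝ, EuclideanSpace ℝ (Fin 4)) ∞ F ∧
      ∀ p (v w : TangentSpace 𝓘(ℝ, R2) p),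
        inner ℝ
          (NormedSpace.fromTangentSpace (F p)
            (mfderiv 𝓘(ℝ, R2) 𝓘(ℝ, EuclideanSpace ℝ (Fin 4)) F p v))
          (NormedSpace.fromTangentSpace (F p)
            (mfderiv 𝓘(ℝ, R2) 𝓘(ℝ, EuclideanSpace ℝ (Fin 4)) F p w)) = g.inner p v w := by
  obtain ⟨𝒜⟩ := Iter.nonempty_atlas (E := R2) (I := 𝓘(ℝ, R2)) (M := M)
    (ContinuousLinearEquiv.refl ℝ R2)
  obtain ⟨h, hh, hP⟩ := Global.exists_finite_critical (M := M)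
  set G : MForm M := fun p => g.inner p with hG
  have hGs : ∀ (U : Set R2) (ψ : R2 → M), IsOpen U → ContMDiffOn 𝓘(ℝ, R2) 𝓘(ℝ, R2) ∞ ψ U →
      ContDiffOn ℝ ∞ (chartForm G ψ) U := fun U ψ hU hψ => metric_chartForm g hU hψ
  obtain ⟨Z, χ, H, hZ, hχ, hχ0, hχP, hHs, hHp, hflat, hloc⟩ :=
    hB 𝒜 G hP.toFinset g.symm g.pos hGs
  obtain ⟨Q⟩ := hQ 𝒜 h H χ hh (fun p hp h0 => hχP p (hP.mem_toFinset.2 h0) hp) hHs hHp
    (fun j => (hloc j).1) hχ hχ0 hflat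
  obtain ⟨Y, hY, hiso⟩ := exists_exact hT 𝒜 (hE 𝒜) Q G g.symm g.pos hHs
    (fun j => hGs _ _ isOpen_ball (𝒜.par_smooth j)) hZ (fun j => (hloc j).2.1)
    (fun j => (hloc j).2.2)
  set L : V4 ≃L[ℝ] EuclideanSpace ℝ (Fin 4) := (EuclideanSpace.equiv (Fin 4) ℝ).symm with hL
  refine ⟨fun p => L (Y p), (L.contDiff.contMDiff.comp hY), fun p v w => ?_⟩
  have hd : ∀ u : TangentSpace 𝓘(ℝ, R2) p,
      NormedSpace.fromTangentSpace (L (Y p))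
        (mfderiv 𝓘(ℝ, R2) 𝓘(ℝ, EuclideanSpace ℝ (Fin 4)) (fun q => L (Y q)) p u) =
      L (mfderiv 𝓘(ℝ, R2) 𝓘(ℝ, V4) Y p u) := fun u => by
    rw [show (fun q => L (Y q)) = L ∘ Y from rfl,
      mfderiv_comp_apply p L.differentiableAt.mdifferentiableAt
        ((hY p).mdifferentiableAt (by simp)), mfderiv_eq_fderiv, L.fderiv]
    rfl
  have hip : ∀ a b : V4, inner ℝ (L a) (L b) = ip a b := fun a b => by
    simp [hL, ip, PiLp.inner_apply, mul_comm]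
  rw [hd v, hd w]
  exact (hip _ _).trans (hiso p v w)

end Vale.Agent.P205
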