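import Vale.Agent.P205.Assembly.Transfer
import Mathlib.Geometry.Manifold.VectorBundle.Riemannian
import Mathlib.Geometry.Manifold.ContMDiffMFDeriv

/-!
Riemannian metrics as tensor fields with smooth components; ellipticity in an atlas.
-/

noncomputable section

open Set Metric Filter
open scoped ContDiff Manifold Topology

namespace Vale.Agent.P205

variable {M : Type} [TopologicalSpace M] [ChartedSpace R2 M] [IsManifold 𝓘(ℝ, R2) ∞ M]

/-- A smooth Riemannian metric has smooth components in every parametrisation. -/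
theorem metric_chartForm
    (g : Bundle.ContMDiffRiemannianMetric 𝓘(ℝ, R2) ∞ R2
      (fun p : M => TangentSpace 𝓘(ℝ, R2) p))
    {U : Set R2} {ψ : R2 → M} (hU : IsOpen U)
    (hψ : ContMDiffOn 𝓘(ℝ, R2) 𝓘(ℝ, R2) ∞ ψ U) :
    ContDiffOn ℝ ∞ (chartForm (fun p => g.inner p) ψ) U := by
  have hv : ∀ a : R2, ContMDiffOn 𝓘(ℝ, R2) (𝓘(ℝ, R2).prod 𝓘(ℝ, R2)) ∞
      (fun z => Bundle.TotalSpace.mk' R2 (E := fun p : M => TangentSpace 𝓘(ℝ, R2) p) (ψ z)
        (mfderiv 𝓘(ℝ, R2) 𝓘(ℝ, R2) ψ z a)) U := fun a => by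
    have hs : ContMDiff 𝓘(ℝ, R2) 𝓘(ℝ, R2).tangent ∞
        (fun z : R2 => (⟨z, a⟩ : TangentBundle 𝓘(ℝ, R2) R2)) :=
      contMDiff_vectorSpace_iff_contDiff.2 contDiff_const
    refine ((hψ.contMDiffOn_tangentMapWithin (m := ∞) (by simp) hU.uniqueMDiffOn).comp
      hs.contMDiffOn fun z hz => hz).congr fun z hz => ?_
    exact (tangentMapWithin_eq_tangentMap (p := (⟨z, a⟩ : TangentBundle 𝓘(ℝ, R2) R2))
      (hU.uniqueMDiffWithinAt hz)
      ((hψ.contMDiffAt (hU.mem_nhds hz)).mdifferentiableAt (by simp))).symm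
  have key : ∀ a b : R2, ContDiffOn ℝ ∞ (fun z => g.inner (ψ z)
      (mfderiv 𝓘(ℝ, R2) 𝓘(ℝ, R2) ψ z a) (mfderiv 𝓘(ℝ, R2) 𝓘(ℝ, R2) ψ z b)) U := fun a b => by
    rw [← contMDiffOn_iff_contDiffOn]
    intro z hz
    have h := (g.contMDiff.contMDiffAt.comp_contMDiffWithinAt z (hψ z hz)).clm_bundle_apply₂
      (F₁ := R2) (F₂ := R2) (F₃ := ℝ) (E₃ := Bundle.Trivial M ℝ) (hv a z hz) (hv b z hz)
    rw [Bundle.contMDiffWithinAt_totalSpace] at h
    exact h.2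
  refine contDiffOn_pi.2 fun i => ?_
  fin_cases i
  · exact key _ _
  · exact key _ _
  · exact key _ _

omit [IsManifold 𝓘(ℝ, R2) ∞ M] in
/-- The quadratic form of the components. -/
theorem qf_chartForm (g : MForm M) (ψ : R2 → M) (z : R2)
    (hs : ∀ v w, g (ψ z) v w = g (ψ z) w v) (a b : R2) :
    qf (chartForm g ψ z) a b =
      g (ψ z) (mfderiv 𝓘(ℝ, R2) 𝓘(ℝ, R2) ψ z a) (mfderiv 𝓘(ℝ, R2) 𝓘(ℝ, R2) ψ z b) := by
  let A : R2 →L[ℝ] R2 := mfderiv 𝓘(ℝ, R2) 𝓘(ℝ, R2) ψ z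
  let B : R2 →L[ℝ] R2 →L[ℝ] ℝ := g (ψ z)
  have hsw : B (A (pt 0 1)) (A (pt 1 0)) = B (A (pt 1 0)) (A (pt 0 1)) := hs _ _
  change _ = B (A a) (A b)
  conv_rhs => rw [Legal.coord_pt a, Legal.coord_pt b]
  simp only [map_add, map_smul, add_apply, smul_apply, smul_eq_mul]
  rw [hsw]
  simp only [qf, chartForm, Matrix.cons_val_zero, Matrix.cons_val_one, Matrix.cons_val_two,
    Matrix.tail_cons, Matrix.head_cons]
  change B (A (pt 1 0)) (A (pt 1 0)) * (a 0 * b 0) +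
    B (A (pt 1 0)) (A (pt 0 1)) * (a 0 * b 1 + a 1 * b 0) +
      B (A (pt 0 1)) (A (pt 0 1)) * (a 1 * b 1) = _
  ring

omit [IsManifold 𝓘(ℝ, R2) ∞ M] in
theorem Disc.mfderiv_ne (d : Disc M) {z : R2} (hz : z ∈ ball (0 : R2) 3) {a : R2} (ha : a ≠ 0) :
    mfderiv 𝓘(ℝ, R2) 𝓘(ℝ, R2) d.par z a ≠ 0 := by
  intro h0
  have hp := (d.par_smooth.contMDiffAt (isOpen_ball.mem_nhds hz)).mdifferentiableAt
    (n := ∞) (by simp)
  have hi := (d.inv_smooth.contMDiffAt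
    (d.src_open.mem_nhds (d.par_mem hz))).mdifferentiableAt (n := ∞) (by simp)
  have e : d.inv ∘ d.par =ᶠ[𝓝 z] id :=
    Filter.eventually_of_mem (isOpen_ball.mem_nhds hz) d.inv_par
  have h := mfderiv_comp z hi hp
  rw [e.mfderiv_eq, mfderiv_id] at h
  have h1 := congrArg (fun L : R2 →L[ℝ] R2 => L a) h
  refine ha (h1.trans ?_)
  change mfderiv 𝓘(ℝ, R2) 𝓘(ℝ, R2) d.inv (d.par z) (mfderiv 𝓘(ℝ, R2) 𝓘(ℝ, R2) d.par z a) = 0
  rw [h0, map_zero]

omit [IsManifold 𝓘(ℝ, R2) ∞ M] in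
/-- A positive tensor is comparable to the coordinate metric in the discs of an atlas. -/
theorem exists_ell (𝒜 : Iter.Atlas (E := R2) (I := 𝓘(ℝ, R2)) (M := M)) (g : MForm M)
    (hsym : ∀ p v w, g p v w = g p w v) (hpos : ∀ p v, v ≠ 0 → 0 < g p v v)
    (hg : ∀ j, ContinuousOn (chartForm g (𝒜.par j)) (closedBall 0 2)) :
    ∃ A : ℝ, 0 < A ∧ ∀ j, ∀ z ∈ closedBall (0 : R2) 2, ∀ a : R2,
      ‖a‖ ^ 2 / A ≤ qf (chartForm g (𝒜.par j) z) a a ∧
        qf (chartForm g (𝒜.par j) z) a a ≤ A * ‖a‖ ^ 2 := by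
  set T : Set (R2 × R2) := closedBall 0 2 ×ˢ sphere 0 1 with hT
  have hTc : IsCompact T := (isCompact_closedBall _ _).prod (isCompact_sphere _ _)
  set f : 𝒜.ι → R2 × R2 → ℝ := fun j x => qf (chartForm g (𝒜.par j) x.1) x.2 x.2 with hf
  have hfc : ∀ j, ContinuousOn (f j) T := fun j => by
    have h1 : ∀ i : Fin 3, ContinuousOn (fun x : R2 × R2 => chartForm g (𝒜.par j) x.1 i) T :=
      fun i => ((continuous_apply i).comp_continuousOn (hg j)).comp continuousOn_fst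
        fun x hx => hx.1
    have h2 : ∀ i : Fin 2, ContinuousOn (fun x : R2 × R2 => x.2 i) T := fun i =>
      (EuclideanSpace.proj (𝕜 := ℝ) i).continuous.comp_continuousOn continuousOn_snd
    simp only [hf, qf]
    exact (((h1 0).mul ((h2 0).mul (h2 0))).add
      ((h1 1).mul (((h2 0).mul (h2 1)).add ((h2 1).mul (h2 0))))).add
        ((h1 2).mul ((h2 1).mul (h2 1)))
  have hfp : ∀ j, ∀ x ∈ T, 0 < f j x := fun j x hx => by
    simp only [hf]
    rw [qf_chartForm g _ _ (hsym _)]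
    refine hpos _ _ ((Disc.ofAtlas 𝒜 j).mfderiv_ne
      (closedBall_subset_ball (by norm_num) hx.1) ?_)
    exact ne_zero_of_mem_unit_sphere ⟨x.2, hx.2⟩
  choose b hb using fun j => hTc.exists_bound_of_continuousOn (hfc j)
  choose c hc using fun j =>
    hTc.exists_bound_of_continuousOn ((hfc j).inv₀ fun x hx => (hfp j x hx).ne')
  set A : ℝ := 1 + ∑ j, (|b j| + |c j|) with hA
  have hs : ∀ j, |b j| + |c j| ≤ A := fun j => le_add_of_nonneg_of_le zero_le_one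
    (Finset.single_le_sum (f := fun j => |b j| + |c j|) (fun _ _ => by positivity)
      (Finset.mem_univ j))
  have hA0 : 0 < A := by
    have : 0 ≤ ∑ j, (|b j| + |c j|) := Finset.sum_nonneg fun _ _ => by positivity
    simp only [hA]; linarith
  refine ⟨A, hA0, fun j z hz a => ?_⟩
  by_cases ha : a = 0
  · subst ha
    simp [qf]
  set r : ℝ := ‖a‖
  have hr : 0 < r := norm_pos_iff.2 ha
  have hu : (z, r⁻¹ • a) ∈ T := by
    refine ⟨hz, ?_⟩
    rw [mem_sphere_zero_iff_norm, norm_smul, norm_inv, Real.norm_eq_abs, abs_of_pos hr]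
    exact inv_mul_cancel₀ hr.ne'
  have he : qf (chartForm g (𝒜.par j) z) a a = r ^ 2 * f j (z, r⁻¹ • a) := by
    simp only [hf, qf, PiLp.smul_apply, smul_eq_mul]
    field_simp
  have h1 : f j (z, r⁻¹ • a) ≤ A := (le_abs_self _).trans
    ((hb j _ hu).trans ((le_abs_self _).trans
      ((le_add_of_nonneg_right (abs_nonneg _)).trans (hs j))))
  have h2 : 1 ≤ A * f j (z, r⁻¹ • a) := by
    have hp := hfp j _ hu
    have h3 : (f j (z, r⁻¹ • a))⁻¹ ≤ A := (le_abs_self _).trans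
      ((hc j _ hu).trans ((le_abs_self _).trans
        ((le_add_of_nonneg_left (abs_nonneg _)).trans (hs j))))
    simpa [hp.ne'] using mul_le_mul_of_nonneg_right h3 hp.le
  rw [he]
  refine ⟨?_, ?_⟩
  · rw [div_le_iff₀ hA0]
    nlinarith [mul_le_mul_of_nonneg_left h2 (sq_nonneg r)]
  · nlinarith [mul_le_mul_of_nonneg_left h1 (sq_nonneg r)]

end Vale.Agent.P205
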