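import Vale.Agent.P205.Assembly.Advance
import Vale.Agent.P205.Assembly.Initial
import Vale.Agent.P205.Assembly.Metric

/-!
From a starting map, the discs of a palette and the three waves to an exact isometric immersion.
-/

noncomputable section

open Set Metric Filter Finset
open scoped ContDiff Manifold Topology

namespace Vale.Agent.P205

open Wave (V4 ip D gram2)

variable {M : Type} [TopologicalSpace M] [ChartedSpace R2 M] [T2Space M]
  {h : M → ℝ} {H : MForm M} {χ : M → ℝ}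

/-- All discs: the residual is at most `K ^ -N`, the cost per derivative is `K ^ (γ ^ n)`. -/
theorem exists_states (hT : TrioProp) (Q : Palette h H χ)
    (𝒜 : Iter.Atlas (E := R2) (I := 𝓘(ℝ, R2)) (M := M)) (hsymH : ∀ p v w, H p v w = H p w v)
    {Z : M → V4} (hZ : ContMDiff 𝓘(ℝ, R2) 𝓘(ℝ, V4) ∞ Z)
    (hZp : ∀ j, ∀ z ∈ ball (0 : R2) 3, 0 < area (fun w => Z (𝒜.par j w)) z ∧
      ∀ a : R2, a ≠ 0 → sff (fun w => Z (𝒜.par j w)) z a a ≠ 0) :
    ∃ γ : ℕ, 1 ≤ γ ∧ ∀ N : ℕ, ∃ (C : ℕ → ℝ) (K0 : ℝ), 1 ≤ K0 ∧ ∀ K, K0 ≤ K →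
      ∃ X, St Q 𝒜 Z Q.n C (K ^ N)⁻¹ (K ^ γ) X := by
  obtain ⟨γ, hγ1, hγ⟩ := St.advance hT Q 𝒜 hsymH Z
  refine ⟨γ ^ Q.n, Nat.one_le_pow _ _ hγ1, fun N => ?_⟩
  suffices key : ∀ k, k ≤ Q.n → ∃ (C : ℕ → ℝ) (K0 : ℝ), 1 ≤ K0 ∧ ∀ K, K0 ≤ K →
      ∃ X, St Q 𝒜 Z k C (K ^ N)⁻¹ (K ^ (γ ^ k)) X from key Q.n le_rfl
  intro k
  induction k with
  | zero =>
      intro _
      obtain ⟨C, hC⟩ := St.init Q 𝒜 hZ hZp
      refine ⟨C, 1, le_rfl, fun K hK => ⟨Z, hC _ _ (by positivity) ?_⟩⟩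
      exact one_le_pow₀ hK
  | succ k ih =>
      intro hk
      obtain ⟨C, K0, hK0, hX⟩ := ih (by omega)
      obtain ⟨C', K1, hK1⟩ := hγ N k (by omega) C
      refine ⟨C', max K0 K1, hK0.trans (le_max_left _ _), fun K hK => ?_⟩
      obtain ⟨hKa, hKb⟩ := max_le_iff.1 hK
      have h1 : 1 ≤ K := hK0.trans hKa
      have hle : K ≤ K ^ (γ ^ k) := le_self_pow₀ h1 (Nat.one_le_iff_ne_zero.1 (Nat.one_le_pow _ _ hγ1))
      obtain ⟨X, hXs⟩ := hX K hKa
      have hε : ((K ^ (γ ^ k)) ^ N)⁻¹ ≤ (K ^ N)⁻¹ :=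
        inv_anti₀ (pow_pos (zero_lt_one.trans_le h1) N)
          (pow_le_pow_left₀ (zero_le_one.trans h1) hle N)
      obtain ⟨X', hX'⟩ := hK1 _ (hKb.trans hle) _ hε X hXs
      refine ⟨X', ?_⟩
      rwa [← pow_mul, ← pow_succ] at hX'

/-- The degenerate exponent: a small multiple of the starting map. -/
theorem exists_start_zero (Q : Palette h H χ)
    (𝒜 : Iter.Atlas (E := R2) (I := 𝓘(ℝ, R2)) (M := M)) (g : MForm M)
    (hsym : ∀ p v w, g p v w = g p w v)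
    (hg : ∀ j, ContDiffOn ℝ ∞ (chartForm g (𝒜.par j)) (ball 0 3))
    {A : ℝ} (hell : ∀ j, ∀ z ∈ closedBall (0 : R2) 2, ∀ a : R2,
      ‖a‖ ^ 2 / A ≤ qf (chartForm g (𝒜.par j) z) a a ∧
        qf (chartForm g (𝒜.par j) z) a a ≤ A * ‖a‖ ^ 2)
    {Z : M → V4} (hZ : ContMDiff 𝓘(ℝ, R2) 𝓘(ℝ, V4) ∞ Z)
    (hZp : ∀ j, ∀ z ∈ ball (0 : R2) 3, 0 < area (fun w => Z (𝒜.par j w)) z ∧
      ∀ a : R2, a ≠ 0 → sff (fun w => Z (𝒜.par j w)) z a a ≠ 0) :
    ∃ C : ℕ → ℝ, ∀ K1 : ℝ, ∃ K, K1 ≤ K ∧ ∃ X, Start 𝒜 A 0 C K g X := by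
  obtain ⟨C, hC⟩ := St.init Q 𝒜 hZ hZp
  have h0 := hC 0 1 le_rfl le_rfl
  choose B hB1 hB using fun j => exists_derivBound isOpen_ball (hg j)
    (Disc.ofAtlas 𝒜 j).S_compact (Disc.ofAtlas 𝒜 j).S_sub
  choose E hE1 hE using fun j => exists_derivBound isOpen_ball
    (contDiffOn_met isOpen_ball (read_smooth (Disc.ofAtlas 𝒜 j) hZ))
    (Disc.ofAtlas 𝒜 j).S_compact (Disc.ofAtlas 𝒜 j).S_sub
  set C' : ℕ → ℝ := fun i => |C i| + ∑ j, B j i + ∑ j, E j i with hC'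
  have hn : ∀ i, 0 ≤ C' i ∧ |C i| ≤ C' i ∧ (∀ j, B j i ≤ C' i) ∧ ∀ j, E j i ≤ C' i := fun i => by
    have h1 : 0 ≤ ∑ j, B j i := Finset.sum_nonneg fun j _ => zero_le_one.trans (hB1 j i)
    have h2 : 0 ≤ ∑ j, E j i := Finset.sum_nonneg fun j _ => zero_le_one.trans (hE1 j i)
    have := abs_nonneg (C i)
    refine ⟨by simp only [hC']; linarith, by simp only [hC']; linarith, fun j => ?_, fun j => ?_⟩
    · have := Finset.single_le_sum (f := fun j => B j i)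
        (fun j _ => zero_le_one.trans (hB1 j i)) (Finset.mem_univ j)
      simp only [hC']; linarith
    · have := Finset.single_le_sum (f := fun j => E j i)
        (fun j _ => zero_le_one.trans (hE1 j i)) (Finset.mem_univ j)
      simp only [hC']; linarith
  refine ⟨C', fun K1 => ⟨max K1 1, le_max_left _ _, ?_⟩⟩
  set K : ℝ := max K1 1
  have hK : 1 ≤ K := le_max_right _ _
  have hKi : ∀ i, C' i ≤ C' i * K ^ i := fun i =>
    le_mul_of_one_le_right (hn i).1 (one_le_pow₀ hK)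
  set t : ℝ := Real.sqrt K⁻¹ with ht
  have ht2 : t ^ 2 = K⁻¹ := Real.sq_sqrt (by positivity)
  have htne : t ≠ 0 := (Real.sqrt_pos.2 (by positivity)).ne'
  have ht1 : |t| ≤ 1 := by
    rw [abs_of_nonneg (Real.sqrt_nonneg _)]
    exact Real.sqrt_le_one.2 (inv_le_one_of_one_le₀ hK)
  have hzd : ∀ j, ∀ z ∈ ball (0 : R2) 3, ∀ n : ℕ,
      ContDiffAt ℝ n (fun w => Z (𝒜.par j w)) z := fun j z hz n =>
    ((read_smooth (Disc.ofAtlas 𝒜 j) hZ).contDiffAt (isOpen_ball.mem_nhds hz)).of_le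
      (by exact WithTop.coe_le_coe.2 le_top)
  refine ⟨fun p => t • Z p, ⟨hsym, (contMDiff_const (I := 𝓘(ℝ, R2)) (I' := 𝓘(ℝ)) (c := t)).smul hZ, hg, hell, ?_, ?_, ?_, ?_⟩⟩
  · intro j i z hz
    rw [one_pow, mul_one]
    exact (hB j i i le_rfl z hz).trans ((hn i).2.2.1 j)
  · intro j i z hz
    show ‖iteratedFDeriv ℝ i (fun w => t • Z (𝒜.par j w)) z‖ ≤ _
    rw [show (fun w => t • Z (𝒜.par j w)) = t • fun w => Z (𝒜.par j w) from rfl,
      iteratedFDeriv_const_smul_apply (hzd j z ((Disc.ofAtlas 𝒜 j).S_sub hz) i), norm_smul,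
      Real.norm_eq_abs]
    refine (mul_le_of_le_one_left (norm_nonneg _) ht1).trans ((h0.bdA j i z hz).trans ?_)
    rw [one_pow, mul_one]
    exact ((le_abs_self _).trans (hn i).2.1).trans (hKi i)
  · intro j z hz
    rw [sffSq_smul (hzd j z ((Disc.ofAtlas 𝒜 j).S_sub hz) 2) htne, ht2,
      show C' 0 * K * (K⁻¹ * sffSq (fun w => Z (𝒜.par j w)) z) =
        C' 0 * sffSq (fun w => Z (𝒜.par j w)) z by field_simp]
    have h1 := h0.sec j z hz
    rw [mul_one] at h1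
    exact h1.trans (mul_le_mul_of_nonneg_right ((le_abs_self _).trans (hn 0).2.1)
      (sffSq_nonneg _ _))
  · intro j i z hz
    have hz3 : z ∈ ball (0 : R2) 3 := (Disc.ofAtlas 𝒜 j).S_sub hz
    have he : (fun w => chartForm g (𝒜.par j) w - met (fun u => t • Z (𝒜.par j u)) w -
        (K ^ 0)⁻¹ • chartForm g (𝒜.par j) w) =ᶠ[𝓝 z]
          (-K⁻¹) • met (fun u => Z (𝒜.par j u)) := by
      filter_upwards [isOpen_ball.mem_nhds hz3] with w hw
      have hd := (hzd j w hw 1).differentiableAt (by simp)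
      have hmet : met (fun u => t • Z (𝒜.par j u)) w =
          K⁻¹ • met (fun u => Z (𝒜.par j u)) w := by
        funext k
        fin_cases k <;>
          simp [met, D, fderiv_fun_const_smul hd, Wave.ip_smul_left, Wave.ip_smul_right, ← ht2]
          <;> ring
      rw [Pi.smul_apply, hmet, pow_zero, inv_one, one_smul, neg_smul]
      abel
    have hd : ContDiffAt ℝ i (met fun u => Z (𝒜.par j u)) z :=
      ((contDiffOn_met isOpen_ball (read_smooth (Disc.ofAtlas 𝒜 j) hZ)).contDiffAt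
        (isOpen_ball.mem_nhds hz3)).of_le (by exact WithTop.coe_le_coe.2 le_top)
    show ‖iteratedFDeriv ℝ i (fun w => chartForm g (𝒜.par j) w -
      met (fun u => t • Z (𝒜.par j u)) w - (K ^ 0)⁻¹ • chartForm g (𝒜.par j) w) z‖ ≤ _
    rw [(he.iteratedFDeriv ℝ i).eq_of_nhds, iteratedFDeriv_const_smul_apply hd, norm_smul,
      norm_neg, Real.norm_eq_abs, abs_of_nonneg (by positivity : (0 : ℝ) ≤ K⁻¹), zero_add,
      pow_one, mul_assoc, mul_comm (C' i), mul_assoc]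
    refine mul_le_mul_of_nonneg_left (((hE j i i le_rfl z hz).trans ((hn i).2.2.2 j)).trans ?_)
      (by positivity)
    rw [mul_comm]
    exact hKi i

/-- An approximate solution at arbitrarily large scales. -/
theorem exists_starts (hT : TrioProp) (Q : Palette h H χ)
    (𝒜 : Iter.Atlas (E := R2) (I := 𝓘(ℝ, R2)) (M := M)) (g : MForm M)
    (hsym : ∀ p v w, g p v w = g p w v) (hsymH : ∀ p v w, H p v w = H p w v)
    (hg : ∀ j, ContDiffOn ℝ ∞ (chartForm g (𝒜.par j)) (ball 0 3))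
    {A : ℝ} (hell : ∀ j, ∀ z ∈ closedBall (0 : R2) 2, ∀ a : R2,
      ‖a‖ ^ 2 / A ≤ qf (chartForm g (𝒜.par j) z) a a ∧
        qf (chartForm g (𝒜.par j) z) a a ≤ A * ‖a‖ ^ 2)
    {Z : M → V4} (hZ : ContMDiff 𝓘(ℝ, R2) 𝓘(ℝ, V4) ∞ Z)
    (hfill : ∀ j, ∀ z ∈ ball (0 : R2) 3, chartForm g (𝒜.par j) z =
      met (fun w => Z (𝒜.par j w)) z + χ (𝒜.par j z) ^ 2 • chartForm H (𝒜.par j) z)
    (hZp : ∀ j, ∀ z ∈ ball (0 : R2) 3, 0 < area (fun w => Z (𝒜.par j w)) z ∧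
      ∀ a : R2, a ≠ 0 → sff (fun w => Z (𝒜.par j w)) z a a ≠ 0)
    (m : ℕ) : ∃ C : ℕ → ℝ, ∀ K1 : ℝ, ∃ K, K1 ≤ K ∧ ∃ X, Start 𝒜 A m C K g X := by
  rcases Nat.eq_zero_or_pos m with rfl | hm
  · exact exists_start_zero Q 𝒜 g hsym hg hell hZ hZp
  obtain ⟨γ, hγ1, hγ⟩ := exists_states hT Q 𝒜 hsymH hZ hZp
  obtain ⟨C, K0, hK0, hX⟩ := hγ (γ * (m + 1))
  choose B hB1 hB using fun j => exists_derivBound isOpen_ball (hg j)
    (Disc.ofAtlas 𝒜 j).S_compact (Disc.ofAtlas 𝒜 j).S_sub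
  set C' : ℕ → ℝ := fun i => 2 * |C i| + ∑ j, B j i + (if i = 0 then 1 else 0) with hC'
  have hbs : ∀ i, 0 ≤ ∑ j, B j i := fun i =>
    Finset.sum_nonneg fun j _ => zero_le_one.trans (hB1 j i)
  have hC'C : ∀ i, 2 * |C i| ≤ C' i := fun i => by
    have := hbs i
    simp only [hC']
    split_ifs <;> linarith
  have hC'B : ∀ j i, B j i ≤ C' i := fun j i => by
    have := Finset.single_le_sum (f := fun j => B j i)
      (fun j _ => zero_le_one.trans (hB1 j i)) (Finset.mem_univ j)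
    have := abs_nonneg (C i)
    simp only [hC']
    split_ifs <;> linarith
  refine ⟨C', fun K1 => ?_⟩
  set K : ℝ := max (max K0 K1) 2 with hKdef
  have hKK0 : K0 ≤ K := (le_max_left _ _).trans (le_max_left _ _)
  have hK2 : (2 : ℝ) ≤ K := le_max_right _ _
  have h1 : 1 ≤ K := by linarith
  set Kf : ℝ := K ^ γ with hKf
  have hKle : K ≤ Kf := le_self_pow₀ h1 (by omega)
  have hKf1 : 1 ≤ Kf := h1.trans hKle
  have hKf0 : 0 < Kf := zero_lt_one.trans_le hKf1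
  obtain ⟨X, hXs⟩ := hX K hKK0
  have hε : (K ^ (γ * (m + 1)))⁻¹ = (Kf ^ (m + 1))⁻¹ := by rw [hKf, ← pow_mul]
  rw [hε] at hXs
  refine ⟨Kf, ((le_max_right _ _).trans (le_max_left _ _)).trans hKle, ?_⟩
  set δ : ℝ := (Kf ^ m)⁻¹ with hδ
  have hδ0 : 0 ≤ δ := by positivity
  have hδ1 : δ ≤ 1 / 2 := by
    rw [hδ, inv_le_comm₀ (by positivity) (by norm_num)]
    exact (by linarith : (1 / 2 : ℝ)⁻¹ ≤ Kf).trans (le_self_pow₀ hKf1 hm.ne')
  set s : ℝ := Real.sqrt (1 - δ) with hs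
  have hs2 : s ^ 2 = 1 - δ := Real.sq_sqrt (by linarith)
  have hs0 : 0 ≤ s := Real.sqrt_nonneg _
  have hs1 : s ≤ 1 := Real.sqrt_le_one.2 (by linarith)
  have hsne : s ≠ 0 := fun h0 => by rw [h0] at hs2; norm_num at hs2; linarith
  refine ⟨fun p => s • X p, ⟨hsym, (contMDiff_const (I := 𝓘(ℝ, R2)) (I' := 𝓘(ℝ)) (c := s)).smul hXs.smooth, hg, hell, ?_, ?_, ?_, ?_⟩⟩
  · intro j i z hz
    rw [one_pow, mul_one]
    exact (hB j i i le_rfl z hz).trans (hC'B j i)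
  · intro j i z hz
    have hd : ContDiffAt ℝ i (fun w => X (𝒜.par j w)) z :=
      ((read_smooth (Disc.ofAtlas 𝒜 j) hXs.smooth).contDiffAt
        (isOpen_ball.mem_nhds ((Disc.ofAtlas 𝒜 j).S_sub hz))).of_le
          (by exact WithTop.coe_le_coe.2 le_top)
    show ‖iteratedFDeriv ℝ i (fun w => s • X (𝒜.par j w)) z‖ ≤ _
    rw [show (fun w => s • X (𝒜.par j w)) = s • fun w => X (𝒜.par j w) from rfl,
      iteratedFDeriv_const_smul_apply hd, norm_smul, Real.norm_eq_abs, abs_of_nonneg hs0]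
    refine (mul_le_of_le_one_left (norm_nonneg _) hs1).trans ((hXs.bdA j i z hz).trans ?_)
    refine mul_le_mul_of_nonneg_right ?_ (by positivity)
    linarith [hC'C i, le_abs_self (C i), abs_nonneg (C i)]
  · intro j z hz
    have hd : ContDiffAt ℝ 2 (fun w => X (𝒜.par j w)) z :=
      ((read_smooth (Disc.ofAtlas 𝒜 j) hXs.smooth).contDiffAt
        (isOpen_ball.mem_nhds ((Disc.ofAtlas 𝒜 j).S_sub hz))).of_le (by norm_cast)
    rw [sffSq_smul hd hsne]
    have h0 := hXs.sec j z hz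
    have hv := sffSq_nonneg (fun w => X (𝒜.par j w)) z
    have h2 : 1 / 2 ≤ s ^ 2 := by linarith
    calc (1 : ℝ) ≤ C 0 * Kf * sffSq (fun w => X (𝒜.par j w)) z := h0
      _ ≤ |C 0| * Kf * sffSq (fun w => X (𝒜.par j w)) z := by
          gcongr
          exact le_abs_self _
      _ = 2 * |C 0| * Kf * (1 / 2 * sffSq (fun w => X (𝒜.par j w)) z) := by ring
      _ ≤ C' 0 * Kf * (s ^ 2 * sffSq (fun w => X (𝒜.par j w)) z) := by
          gcongr
          · exact mul_nonneg ((by positivity : (0 : ℝ) ≤ 2 * |C 0|).trans (hC'C 0)) hKf0.le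
          · exact hC'C 0
  · intro j i z hz
    have hz3 : z ∈ ball (0 : R2) 3 := (Disc.ofAtlas 𝒜 j).S_sub hz
    have he : (fun w => chartForm g (𝒜.par j) w - met (fun u => s • X (𝒜.par j u)) w -
        δ • chartForm g (𝒜.par j) w) =ᶠ[𝓝 z]
          (δ - 1) • resid Q Z Q.n X (Disc.ofAtlas 𝒜 j) := by
      filter_upwards [isOpen_ball.mem_nhds hz3] with w hw
      have hd : DifferentiableAt ℝ (fun u => X (𝒜.par j u)) w :=
        ((read_smooth (Disc.ofAtlas 𝒜 j) hXs.smooth).contDiffAt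
          (isOpen_ball.mem_nhds hw)).differentiableAt (by simp)
      have hmet : met (fun u => s • X (𝒜.par j u)) w =
          (1 - δ) • met (fun u => X (𝒜.par j u)) w := by
        funext k
        fin_cases k <;>
          simp [met, D, fderiv_fun_const_smul hd, Wave.ip_smul_left, Wave.ip_smul_right, ← hs2]
          <;> ring
      rw [Pi.smul_apply, hmet]
      show _ = (δ - 1) • (met (fun u => X (𝒜.par j u)) w - met (fun u => Z (𝒜.par j u)) w -
        Q.part Q.n (𝒜.par j w) • chartForm H (𝒜.par j) w)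
      rw [Q.part_full, hfill j w hw]
      funext k
      simp only [Pi.sub_apply, Pi.add_apply, Pi.smul_apply, smul_eq_mul]
      ring
    show ‖iteratedFDeriv ℝ i (fun w => chartForm g (𝒜.par j) w -
      met (fun u => s • X (𝒜.par j u)) w - δ • chartForm g (𝒜.par j) w) z‖ ≤ _
    have hd : ContDiffAt ℝ i (resid Q Z Q.n X (Disc.ofAtlas 𝒜 j)) z :=
      ((hXs.resSmooth j).contDiffAt (isOpen_ball.mem_nhds hz3)).of_le
        (by exact WithTop.coe_le_coe.2 le_top)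
    rw [(he.iteratedFDeriv ℝ i).eq_of_nhds, iteratedFDeriv_const_smul_apply hd, norm_smul,
      Real.norm_eq_abs]
    have habs : |δ - 1| ≤ 1 := abs_le.2 ⟨by linarith, by linarith⟩
    refine (mul_le_of_le_one_left (norm_nonneg _) habs).trans ((hXs.res j i z hz).trans ?_)
    refine mul_le_mul_of_nonneg_right (mul_le_mul_of_nonneg_right ?_ (by positivity))
      (by positivity)
    linarith [hC'C i, le_abs_self (C i), abs_nonneg (C i)]

end Vale.Agent.P205
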