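import Vale.Agent.P205.Interfaces
import Mathlib.Geometry.Manifold.Instances.Sphere

/-!
The model surface: the round two sphere, immersed in the unit three sphere as a tube around the
product torus, flat on the hemisphere around the north pole.
-/

noncomputable section

open Set Real Metric Filter
open scoped ContDiff Manifold Topology RealInnerProductSpace

namespace Vale.Agent.P205

open Wave (V4 ip)

/-- The round sphere. -/
abbrev Sphere2 := sphere (0 : EuclideanSpace ℝ (Fin 3)) 1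

namespace ModelSphere

instance : Fact (Module.finrank ℝ (EuclideanSpace ℝ (Fin 3)) = 2 + 1) :=
  ⟨finrank_euclideanSpace_fin⟩

/-- The profile: zero above the equator, one at the south pole. -/
def prof (c : ℝ) : ℝ := exp (1 / 2) * expNegInvGlue (-2 * c)

/-- Its derivative. -/
def prof' (c : ℝ) : ℝ := -(2 * exp (1 / 2) * (((-2 * c)⁻¹) ^ 2 * expNegInvGlue (-2 * c)))

theorem hasDerivAt_prof (c : ℝ) : HasDerivAt prof (prof' c) c := by
  have h := (expNegInvGlue.hasDerivAt_polynomial_eval_inv_mul 1 (-2 * c)).comp c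
    ((hasDerivAt_id c).const_mul (-2))
  simp at h
  refine (HasDerivAt.const_mul (exp (1 / 2)) h).congr_deriv ?_ |>.congr_of_eventuallyEq ?_
  · simp [prof']; ring
  · exact Eventually.of_forall fun x => by simp [prof, Function.comp]

theorem contDiff_prof : ContDiff ℝ ∞ prof :=
  contDiff_const.mul (expNegInvGlue.contDiff.comp (contDiff_const.mul contDiff_id))

theorem prof_of_nonneg {c : ℝ} (h : 0 ≤ c) : prof c = 0 ∧ prof' c = 0 := by
  have : expNegInvGlue (-2 * c) = 0 := expNegInvGlue.zero_of_nonpos (by linarith)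
  rw [prof, prof', this]; simp

theorem prof'_ne {c : ℝ} (h : c < 0) : prof' c ≠ 0 := by
  have h0 : 0 < expNegInvGlue (-2 * c) := expNegInvGlue.pos_of_pos (by linarith)
  have h1 : 0 < ((-2 * c)⁻¹) ^ 2 := by
    have : 0 < -2 * c := by linarith
    positivity
  exact neg_ne_zero.2 (by positivity)

theorem prof_mem {c : ℝ} (h : -1 ≤ c) : 0 ≤ prof c ∧ prof c ≤ 1 := by
  refine ⟨mul_nonneg (exp_pos _).le (expNegInvGlue.nonneg _), ?_⟩
  rcases le_or_gt 0 c with hc | hc
  · simp [(prof_of_nonneg hc).1]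
  · have e : expNegInvGlue (-2 * c) = exp (-(-2 * c)⁻¹) := by
      rw [expNegInvGlue, if_neg (not_le.2 (show 0 < -2 * c by linarith))]
    rw [prof, e, ← exp_add, exp_le_one_iff]
    have h2 : (2 : ℝ)⁻¹ ≤ (-2 * c)⁻¹ := inv_anti₀ (by linarith) (by linarith)
    linarith

/-- The denominator of the angles. -/
def den (c : ℝ) : ℝ := 1 + c + (1 - c) * prof c

theorem den_pos {c : ℝ} (h : -1 ≤ c) (h1 : c ≤ 1) : 0 < den c := by
  rcases eq_or_lt_of_le h with rfl | hlt
  · have e : expNegInvGlue (-2 * (-1)) = exp (-(2 : ℝ)⁻¹) := by norm_num [expNegInvGlue]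
    have : 0 < prof (-1) := mul_pos (exp_pos _) (by rw [e]; exact exp_pos _)
    unfold den; linarith
  · have := mul_nonneg (by linarith : (0:ℝ) ≤ 1 - c) (prof_mem h).1
    unfold den; linarith

/-- The derivative of the denominator. -/
def den' (c : ℝ) : ℝ := 1 + ((-1) * prof c + (1 - c) * prof' c)

theorem hasDerivAt_den (c : ℝ) : HasDerivAt den (den' c) c :=
  (((hasDerivAt_id' c).const_add 1)).add
    (((hasDerivAt_id' c).const_sub 1).mul (hasDerivAt_prof c))

theorem den_eq {c : ℝ} (h : 0 ≤ c) : den c = 1 + c ∧ den' c = 1 := by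
  simp [den, den', prof_of_nonneg h]

/-- The tube around the product torus in the unit three sphere. -/
def tube (u v w : ℝ) : V4 :=
  (√2)⁻¹ • ![√(1 + w) * cos u, √(1 + w) * sin u, √(1 - w) * cos v, √(1 - w) * sin v]

theorem ip_tube (u v : ℝ) {w : ℝ} (h1 : -1 ≤ w) (h2 : w ≤ 1) :
    ip (tube u v w) (tube u v w) = 1 := by
  simp only [ip, tube, Fin.sum_univ_four, Pi.smul_apply, smul_eq_mul]
  simp only [Matrix.cons_val]
  have a := sq_sqrt (by linarith : (0:ℝ) ≤ 1 + w)
  have b := sq_sqrt (by linarith : (0:ℝ) ≤ 1 - w)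
  have c : (√2)⁻¹ ^ 2 = 2⁻¹ := by rw [inv_pow, sq_sqrt zero_le_two]
  linear_combination (√(1 + w) ^ 2 * (sin u ^ 2 + cos u ^ 2) +
      √(1 - w) ^ 2 * (sin v ^ 2 + cos v ^ 2)) * c + 2⁻¹ * a + 2⁻¹ * b +
    2⁻¹ * √(1 + w) ^ 2 * sin_sq_add_cos_sq u + 2⁻¹ * √(1 - w) ^ 2 * sin_sq_add_cos_sq v

/-- The immersion on the ambient space. -/
def amb (x : EuclideanSpace ℝ (Fin 3)) : V4 :=
  tube (√2 * (x 0 / den (x 2))) (√2 * (x 1 / den (x 2))) (prof (x 2) / 4)

theorem bounds {x : EuclideanSpace ℝ (Fin 3)} (hx : ‖x‖ = 1) :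
    x 0 ^ 2 + x 1 ^ 2 + x 2 ^ 2 = 1 ∧ -1 ≤ x 2 ∧ x 2 ≤ 1 := by
  have h : x 0 ^ 2 + x 1 ^ 2 + x 2 ^ 2 = 1 := by
    have := EuclideanSpace.real_norm_sq_eq x
    rw [hx, Fin.sum_univ_three] at this
    linarith
  exact ⟨h, by nlinarith [sq_nonneg (x 0), sq_nonneg (x 1)],
    by nlinarith [sq_nonneg (x 0), sq_nonneg (x 1)]⟩

theorem wmem {x : EuclideanSpace ℝ (Fin 3)} (hx : ‖x‖ = 1) :
    0 < 1 + prof (x 2) / 4 ∧ 0 < 1 - prof (x 2) / 4 := by
  have := prof_mem (bounds hx).2.1
  constructor <;> linarith [this.1, this.2]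

theorem contDiffAt_amb {x : EuclideanSpace ℝ (Fin 3)} (hx : ‖x‖ = 1) :
    ContDiffAt ℝ ∞ amb x := by
  have hp : ∀ i : Fin 3, ContDiffAt ℝ ∞ (fun y : EuclideanSpace ℝ (Fin 3) => y i) x := fun i =>
    (EuclideanSpace.proj (𝕜 := ℝ) i).contDiff.contDiffAt
  have hP : ContDiffAt ℝ ∞ (fun y : EuclideanSpace ℝ (Fin 3) => prof (y 2)) x :=
    contDiff_prof.contDiffAt.comp x (hp 2)
  have hd : ContDiffAt ℝ ∞ (fun y : EuclideanSpace ℝ (Fin 3) => den (y 2)) x :=
    ((contDiffAt_const.add (hp 2))).add ((contDiffAt_const.sub (hp 2)).mul hP)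
  have hne := (den_pos (bounds hx).2.1 (bounds hx).2.2).ne'
  have hu := contDiffAt_const (c := √2) |>.mul ((hp 0).div hd hne)
  have hv := contDiffAt_const (c := √2) |>.mul ((hp 1).div hd hne)
  have ha := (contDiffAt_const (c := (1:ℝ)) |>.add (hP.div_const 4)).sqrt (wmem hx).1.ne'
  have hb := (contDiffAt_const (c := (1:ℝ)) |>.sub (hP.div_const 4)).sqrt (wmem hx).2.ne'
  refine contDiffAt_pi.2 fun i => ?_
  fin_cases i <;> simp [amb, tube]
  · exact contDiffAt_const.mul (ha.mul hu.cos)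
  · exact contDiffAt_const.mul (ha.mul hu.sin)
  · exact contDiffAt_const.mul (hb.mul hv.cos)
  · exact contDiffAt_const.mul (hb.mul hv.sin)

theorem amb_imm {x w : EuclideanSpace ℝ (Fin 3)} (hx : ‖x‖ = 1) (hw : ⟪x, w⟫ = 0)
    (h0 : fderiv ℝ amb x w = 0) : w = 0 := by
  obtain ⟨hsq, hc1, hc2⟩ := bounds hx
  have hd : ∀ i : Fin 3, HasFDerivAt (fun y : EuclideanSpace ℝ (Fin 3) => y i)
      (EuclideanSpace.proj (𝕜 := ℝ) i) x := fun i =>
    (EuclideanSpace.proj (𝕜 := ℝ) i).hasFDerivAt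
  have hne := (den_pos hc1 hc2).ne'
  have hD := (hasDerivAt_den (x 2)).comp_hasFDerivAt x (hd 2)
  have hP := ((hasDerivAt_prof (x 2)).div_const 4).comp_hasFDerivAt x (hd 2)
  have hi := (hasDerivAt_inv hne).comp_hasFDerivAt x hD
  have hu := ((hd 0).fun_mul hi).const_mul √2
  have hv := ((hd 1).fun_mul hi).const_mul √2
  have hp : 0 < √(1 + prof (x 2) / 4) := sqrt_pos.2 (wmem hx).1
  have hm : 0 < √(1 - prof (x 2) / 4) := sqrt_pos.2 (wmem hx).2
  have sp := (hasDerivAt_sqrt (wmem hx).1.ne').comp_hasFDerivAt x (hP.const_add 1)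
  have sm := (hasDerivAt_sqrt (wmem hx).2.ne').comp_hasFDerivAt x (hP.const_sub 1)
  have c0 := (sp.fun_mul hu.cos).const_mul (√2)⁻¹
  have c1 := (sp.fun_mul hu.sin).const_mul (√2)⁻¹
  have c2 := (sm.fun_mul hv.cos).const_mul (√2)⁻¹
  have c3 := (sm.fun_mul hv.sin).const_mul (√2)⁻¹
  have hdiff := (contDiffAt_amb hx).differentiableAt (by simp)
  have key : ∀ (i : Fin 4) (f' : EuclideanSpace ℝ (Fin 3) →L[ℝ] ℝ),
      HasFDerivAt (fun y => amb y i) f' x → f' w = 0 := fun i f' hf => by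
    rw [hf.unique (hasFDerivAt_pi'.1 hdiff.hasFDerivAt i)]
    simp [h0]
  have e0 := key 0 _ (c0.congr_of_eventuallyEq
    (Eventually.of_forall fun y => by simp [amb, tube, div_eq_mul_inv]))
  have e1 := key 1 _ (c1.congr_of_eventuallyEq
    (Eventually.of_forall fun y => by simp [amb, tube, div_eq_mul_inv]))
  have e2 := key 2 _ (c2.congr_of_eventuallyEq
    (Eventually.of_forall fun y => by simp [amb, tube, div_eq_mul_inv]))
  have e3 := key 3 _ (c3.congr_of_eventuallyEq
    (Eventually.of_forall fun y => by simp [amb, tube, div_eq_mul_inv]))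
  simp at e0 e1 e2 e3
  set U := √2 * (x 0 * (den (x 2))⁻¹) with hU
  set V := √2 * (x 1 * (den (x 2))⁻¹) with hV
  set A := √(1 + prof (x 2) / 4) with hA
  set B := √(1 - prof (x 2) / 4) with hB
  set k := prof' (x 2) / 4 * w 2 with hk
  set du := √2 * (x 0 * (-(den (x 2) ^ 2)⁻¹ * (den' (x 2) * w 2)) + (den (x 2))⁻¹ * w 0) with hdu
  set dv := √2 * (x 1 * (-(den (x 2) ^ 2)⁻¹ * (den' (x 2) * w 2)) + (den (x 2))⁻¹ * w 1) with hdv
  have hs : (√2)⁻¹ ≠ (0 : ℝ) := by positivity
  have a0 : -A * sin U * du + cos U * (1 / (2 * A) * k) = 0 := by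
    refine (mul_eq_zero.1 (?_ : (√2)⁻¹ * _ = 0)).resolve_left hs
    simp only [hdu]; linear_combination e0
  have a1 : A * cos U * du + sin U * (1 / (2 * A) * k) = 0 := by
    refine (mul_eq_zero.1 (?_ : (√2)⁻¹ * _ = 0)).resolve_left hs
    simp only [hdu]; linear_combination e1
  have a2 : -B * sin V * dv + cos V * (1 / (2 * B) * -k) = 0 := by
    refine (mul_eq_zero.1 (?_ : (√2)⁻¹ * _ = 0)).resolve_left hs
    simp only [hdv]; linear_combination e2
  have a3 : B * cos V * dv + sin V * (1 / (2 * B) * -k) = 0 := by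
    refine (mul_eq_zero.1 (?_ : (√2)⁻¹ * _ = 0)).resolve_left hs
    simp only [hdv]; linear_combination e3
  have hk0 : k = 0 := by
    have : 1 / (2 * A) * k = 0 := by
      linear_combination cos U * a0 + sin U * a1 - (1 / (2 * A) * k) * sin_sq_add_cos_sq U
    exact (mul_eq_zero.1 this).resolve_left (by positivity)
  have hu0 : du = 0 := by
    have : A * du = 0 := by
      linear_combination cos U * a1 - sin U * a0 - A * du * sin_sq_add_cos_sq U
    exact (mul_eq_zero.1 this).resolve_left hp.ne'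
  have hv0 : dv = 0 := by
    have : B * dv = 0 := by
      linear_combination cos V * a3 - sin V * a2 - B * dv * sin_sq_add_cos_sq V
    exact (mul_eq_zero.1 this).resolve_left hm.ne'
  have hs2 : √2 ≠ 0 := by positivity
  have b0 : w 0 * den (x 2) = x 0 * (den' (x 2) * w 2) := by
    have := (mul_eq_zero.1 (hdu.symm.trans hu0)).resolve_left hs2
    field_simp at this
    linarith
  have b1 : w 1 * den (x 2) = x 1 * (den' (x 2) * w 2) := by
    have := (mul_eq_zero.1 (hdv.symm.trans hv0)).resolve_left hs2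
    field_simp at this
    linarith
  have hperp : x 0 * w 0 + x 1 * w 1 + x 2 * w 2 = 0 := by
    simpa [PiLp.inner_apply, Fin.sum_univ_three, mul_comm] using hw
  have hw2 : w 2 = 0 := by
    rcases lt_or_ge (x 2) 0 with hc | hc
    · rcases mul_eq_zero.1 hk0 with h | h
      · exact absurd (by linarith : prof' (x 2) = 0) (prof'_ne hc)
      · exact h
    · rw [(den_eq hc).1, (den_eq hc).2] at b0 b1
      have : w 2 * (1 + x 2) = 0 := by
        linear_combination (1 + x 2) * hperp - x 0 * b0 - x 1 * b1 - w 2 * hsq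
      exact (mul_eq_zero.1 this).resolve_right (by linarith)
  rw [hw2, mul_zero, mul_zero] at b0 b1
  ext i
  fin_cases i
  · exact (mul_eq_zero.1 b0).resolve_right hne
  · exact (mul_eq_zero.1 b1).resolve_right hne
  · exact hw2

/-- The inverse stereographic map from the south pole. -/
def stereo (t : R2) : EuclideanSpace ℝ (Fin 3) :=
  (1 + ‖t‖ ^ 2)⁻¹ • !₂[2 * t 0, 2 * t 1, 1 - ‖t‖ ^ 2]

theorem stereo_mem (t : R2) : stereo t ∈ sphere (0 : EuclideanSpace ℝ (Fin 3)) 1 := by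
  have ht : ‖t‖ ^ 2 = t 0 ^ 2 + t 1 ^ 2 := by
    rw [EuclideanSpace.real_norm_sq_eq, Fin.sum_univ_two]
  have : ‖stereo t‖ ^ 2 = 1 := by
    rw [EuclideanSpace.real_norm_sq_eq, Fin.sum_univ_three]
    simp [stereo, ht]
    field_simp
    ring
  rw [mem_sphere_zero_iff_norm]
  nlinarith [norm_nonneg (stereo t)]

theorem contDiff_stereo : ContDiff ℝ ∞ stereo := by
  have h : ContDiff ℝ ∞ fun t : R2 => ‖t‖ ^ 2 := contDiff_norm_sq ℝ
  refine ((contDiff_const.add h).inv fun t => by positivity).smul ?_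
  refine contDiff_piLp'  (p := 2) fun i => ?_
  fin_cases i <;> simp
  · exact contDiff_const.mul (EuclideanSpace.proj (𝕜 := ℝ) (0 : Fin 2)).contDiff
  · exact contDiff_const.mul (EuclideanSpace.proj (𝕜 := ℝ) (1 : Fin 2)).contDiff
  · exact contDiff_const.sub h

/-- The parametrisation of the sphere without the south pole. -/
def chart : R2 → Sphere2 := Set.codRestrict _ _ stereo_mem

/-- Its inverse. -/
def coord (p : Sphere2) : R2 :=
  (1 + (p : EuclideanSpace ℝ (Fin 3)) 2)⁻¹ •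
    pt ((p : EuclideanSpace ℝ (Fin 3)) 0) ((p : EuclideanSpace ℝ (Fin 3)) 1)

theorem coord_chart (t : R2) : coord (chart t) = t := by
  have h : (1 : ℝ) + ‖t‖ ^ 2 ≠ 0 := by positivity
  ext i
  fin_cases i <;> simp [coord, chart, stereo, pt] <;> field_simp <;> ring

theorem range_chart : range chart = {p : Sphere2 | (p : EuclideanSpace ℝ (Fin 3)) 2 ≠ -1} := by
  ext p
  refine ⟨?_, fun hp => ⟨coord p, ?_⟩⟩
  · rintro ⟨t, rfl⟩ h
    have h0 : (1 : ℝ) + ‖t‖ ^ 2 ≠ 0 := by positivity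
    simp [chart, stereo] at h
    field_simp at h
    linarith
  · obtain ⟨hsq, hc, -⟩ := bounds (mem_sphere_zero_iff_norm.1 p.2)
    set x := (p : EuclideanSpace ℝ (Fin 3)) with hx
    have hpos : 0 < 1 + x 2 := by
      rcases eq_or_lt_of_le hc with h | h
      · exact absurd h.symm hp
      · linarith
    have hn : ‖coord p‖ ^ 2 = (1 - x 2) / (1 + x 2) := by
      rw [EuclideanSpace.real_norm_sq_eq, Fin.sum_univ_two]
      simp [coord, pt, ← hx]
      field_simp
      linarith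
    apply Subtype.ext
    change stereo (coord p) = x
    simp only [stereo, hn]
    ext i
    fin_cases i <;> simp [coord, pt, ← hx] <;> field_simp <;> ring

theorem contMDiff_chart : ContMDiff 𝓘(ℝ, R2) (𝓡 2) ∞ chart :=
  contDiff_stereo.contMDiff.codRestrict_sphere stereo_mem

theorem isOpen_range_chart : IsOpen (range chart) := by
  rw [range_chart]
  exact isOpen_ne_fun ((EuclideanSpace.proj (𝕜 := ℝ) (2 : Fin 3)).continuous.comp
    continuous_subtype_val) continuous_const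

theorem contMDiffOn_coord : ContMDiffOn (𝓡 2) 𝓘(ℝ, R2) ∞ coord (range chart) := by
  rw [range_chart]
  have h : ContDiffOn ℝ ∞ (fun x : EuclideanSpace ℝ (Fin 3) => (1 + x 2)⁻¹ • pt (x 0) (x 1))
      {x | x 2 ≠ -1} := by
    have hp : ∀ i : Fin 3, ContDiff ℝ ∞ fun y : EuclideanSpace ℝ (Fin 3) => y i := fun i =>
      (EuclideanSpace.proj (𝕜 := ℝ) i).contDiff
    refine ((contDiff_const.add (hp 2)).contDiffOn.inv fun x (hx : x 2 ≠ -1) h => hx (by linarith)).smul ?_
    refine (contDiff_piLp' (p := 2) fun i => ?_).contDiffOn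
    fin_cases i <;> simp [pt]
    · exact hp 0
    · exact hp 1
  exact h.contMDiffOn.comp contMDiff_coe_sphere.contMDiffOn fun p hp => hp

/-- The immersion of the sphere. -/
def map (p : Sphere2) : V4 := amb p

theorem contMDiff_map : ContMDiff (𝓡 2) 𝓘(ℝ, V4) ∞ map := fun p =>
  (contDiffAt_amb (mem_sphere_zero_iff_norm.1 p.2)).contMDiffAt.comp p (contMDiff_coe_sphere p)

theorem map_injective (p : Sphere2) :
    Function.Injective (mfderiv (𝓡 2) 𝓘(ℝ, V4) map p) := by
  refine (injective_iff_map_eq_zero _).2 fun v hv => ?_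
  have hx : ‖(p : EuclideanSpace ℝ (Fin 3))‖ = 1 := mem_sphere_zero_iff_norm.1 p.2
  have hc := mfderiv_comp p
    (((contDiffAt_amb hx).differentiableAt (by simp)).mdifferentiableAt)
    ((contMDiff_coe_sphere (m := ∞) (n := 2) p).mdifferentiableAt (by simp))
  rw [mfderiv_eq_fderiv] at hc
  set dc := mfderiv (𝓡 2) 𝓘(ℝ, EuclideanSpace ℝ (Fin 3))
    ((↑) : Sphere2 → EuclideanSpace ℝ (Fin 3)) p
  have h0 : fderiv ℝ amb p (dc v) = 0 := (DFunLike.congr_fun hc v).symm.trans hv
  have hperp : (dc v : EuclideanSpace ℝ (Fin 3)) ∈ (ℝ ∙ (p : EuclideanSpace ℝ (Fin 3)))ᗮ := by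
    rw [← range_mfderiv_coe_sphere (n := 2) p]
    exact LinearMap.mem_range_self _ v
  exact mfderiv_coe_sphere_injective (n := 2) p
    ((amb_imm hx (Submodule.mem_orthogonal_singleton_iff_inner_right.1 hperp) h0).trans
      (map_zero dc).symm)

theorem ip_map (p : Sphere2) : ip (map p) (map p) = 1 :=
  ip_tube _ _ (by linarith [(wmem (mem_sphere_zero_iff_norm.1 p.2)).1])
    (by linarith [(wmem (mem_sphere_zero_iff_norm.1 p.2)).2])

theorem map_chart {t : R2} (ht : ‖t‖ ≤ 1) : map (chart t) = flatTorus t := by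
  have h : (1 : ℝ) + ‖t‖ ^ 2 ≠ 0 := by positivity
  have hc : 0 ≤ stereo t 2 := by
    have : ‖t‖ ^ 2 ≤ 1 := by nlinarith [norm_nonneg t]
    simp [stereo]
    positivity
  have e2 : 1 + stereo t 2 = 2 / (1 + ‖t‖ ^ 2) := by
    simp [stereo]
    field_simp
    ring
  have e0 : stereo t 0 / (1 + stereo t 2) = t 0 := by
    rw [e2]; simp [stereo]; field_simp
  have e1 : stereo t 1 / (1 + stereo t 2) = t 1 := by
    rw [e2]; simp [stereo]; field_simp
  change amb (stereo t) = _
  rw [amb, (prof_of_nonneg hc).1, (den_eq hc).1, e0, e1]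
  simp [tube, flatTorus]

end ModelSphere

open ModelSphere in
/-- The model: an immersion of the round sphere in the unit sphere of four-space which is the
flat torus on a disc of a parametrisation. -/
theorem exists_model : ∃ (Z : Sphere2 → V4) (σ : R2 → Sphere2) (q : Sphere2 → R2),
    ContMDiff (𝓡 2) 𝓘(ℝ, V4) ∞ Z ∧ (∀ p, ip (Z p) (Z p) = 1) ∧
      (∀ p, Function.Injective (mfderiv (𝓡 2) 𝓘(ℝ, V4) Z p)) ∧
      ContMDiff 𝓘(ℝ, R2) (𝓡 2) ∞ σ ∧ (∀ t, q (σ t) = t) ∧ IsOpen (range σ) ∧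
      ContMDiffOn (𝓡 2) 𝓘(ℝ, R2) ∞ q (range σ) ∧ ∀ t, ‖t‖ ≤ 1 → Z (σ t) = flatTorus t :=
  ⟨map, chart, coord, contMDiff_map, ip_map, map_injective, contMDiff_chart, coord_chart,
    isOpen_range_chart, contMDiffOn_coord, fun _ ht => map_chart ht⟩

end Vale.Agent.P205
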