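import Vale.Agent.P205.Interfaces

/-!
Parametrised discs and the finite list of adapted discs in which the deficit is carried.
-/

noncomputable section

open Set Metric
open scoped ContDiff Manifold

namespace Vale.Agent.P205

variable (M : Type) [TopologicalSpace M] [ChartedSpace R2 M]

/-- A parametrised disc of radius three with a smaller closed disc. -/
structure Disc where
  /-- The parametrisation. -/
  par : R2 → M
  /-- Its inverse. -/
  inv : M → R2
  /-- Its image. -/
  src : Set M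
  /-- The radius of the working disc. -/
  r : ℝ
  r_pos : 0 < r
  r_lt : r < 3
  src_open : IsOpen src
  par_smooth : ContMDiffOn 𝓘(ℝ, R2) 𝓘(ℝ, R2) ∞ par (ball 0 3)
  par_mem : MapsTo par (ball 0 3) src
  inv_mem : MapsTo inv src (ball 0 3)
  inv_smooth : ContMDiffOn 𝓘(ℝ, R2) 𝓘(ℝ, R2) ∞ inv src
  inv_par : ∀ z ∈ ball (0 : R2) 3, inv (par z) = z
  par_inv : ∀ p ∈ src, par (inv p) = p

variable {M}

/-- The working disc. -/
def Disc.S (d : Disc M) : Set R2 := closedBall 0 d.r

/-- The discs of an atlas, with the closed disc of radius two. -/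
def Disc.ofAtlas (𝒜 : Iter.Atlas (E := R2) (I := 𝓘(ℝ, R2)) (M := M)) (j : 𝒜.ι) : Disc M where
  par := 𝒜.par j
  inv := 𝒜.inv j
  src := 𝒜.src j
  r := 2
  r_pos := two_pos
  r_lt := by norm_num
  src_open := 𝒜.src_open j
  par_smooth := 𝒜.par_smooth j
  par_mem := 𝒜.par_mem j
  inv_mem := 𝒜.inv_mem j
  inv_smooth := 𝒜.inv_smooth j
  inv_par := 𝒜.inv_par j
  par_inv := 𝒜.par_inv j

/-- Adapted discs carrying `χ² • H`: in each of them `h` is affine in `x` and `H` is close to a
multiple of `(1, 0, 1/2)`. -/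
structure Palette (h : M → ℝ) (H : MForm M) (χ : M → ℝ) where
  /-- The number of discs. -/
  n : ℕ
  /-- The discs. -/
  disc : Fin n → Disc M
  /-- The height at the centres. -/
  h0 : Fin n → ℝ
  /-- The slopes. -/
  slope : Fin n → ℝ
  slope_ne : ∀ c, slope c ≠ 0
  height : ∀ c, ∀ z ∈ ball (0 : R2) 3, h ((disc c).par z) = h0 c + slope c * z 0
  /-- The coefficients of the three squares. -/
  β : Fin n → Fin 3 → R2 → ℝ
  β_smooth : ∀ c j, ContDiffOn ℝ ∞ (β c j) (ball 0 3)
  β_range : ∀ c j, ∀ z ∈ (disc c).S, β c j z ∈ Icc (1 / 16 : ℝ) 16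
  /-- The cut-offs in the discs. -/
  cut : Fin n → R2 → ℝ
  cut_smooth : ∀ c, ContDiff ℝ ∞ (cut c)
  cut_supp : ∀ c z, z ∉ (disc c).S → cut c z = 0
  cut_flat : ∀ c, ∃ C2, Flat (disc c).S C2 1 (cut c)
  /-- The shares of `χ`. -/
  share : Fin n → M → ℝ
  share_supp : ∀ c p, share c p ≠ 0 → p ∈ (disc c).par '' (disc c).S
  share_sum : ∀ p, ∑ c, share c p ^ 2 = χ p ^ 2
  fill : ∀ c, ∀ z ∈ ball (0 : R2) 3,
    cut c z ^ 2 • trioForm (β c) z = share c ((disc c).par z) ^ 2 • chartForm H (disc c).par z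

end Vale.Agent.P205
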