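import Vale.Agent.P205.Assembly.Steps

/-!
One application of the three waves, in one disc of the palette, seen from every other disc.
-/

noncomputable section

open Set Metric Filter Finset
open scoped ContDiff Manifold Topology

namespace Vale.Agent.P205

open Wave (V4 ip D gram2)

section local_

variable {f g : R2 → V4} {z : R2}

theorem D_eventually (h : f =ᶠ[𝓝 z] g) (a : R2) : D a f =ᶠ[𝓝 z] D a g := by
  filter_upwards [h.fderiv (𝕜 := ℝ)] with w hw
  simp only [D, hw]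

theorem met_eventually (h : f =ᶠ[𝓝 z] g) : met f =ᶠ[𝓝 z] met g := by
  filter_upwards [D_eventually h (pt 1 0), D_eventually h (pt 0 1)] with w h1 h2
  simp only [met, h1, h2]

theorem area_congr (h : f =ᶠ[𝓝 z] g) : area f z = area g z := by
  simp only [area, (D_eventually h (pt 1 0)).eq_of_nhds, (D_eventually h (pt 0 1)).eq_of_nhds]

theorem sff_congr (h : f =ᶠ[𝓝 z] g) (a b : R2) : sff f z a b = sff g z a b := by
  have h2 : D a (D b f) z = D a (D b g) z := (D_eventually_scalar (D_eventually h b) a)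
  simp only [sff, (D_eventually h (pt 1 0)).eq_of_nhds, (D_eventually h (pt 0 1)).eq_of_nhds, h2]
where
  D_eventually_scalar {f g : R2 → V4} {z : R2} (h : f =ᶠ[𝓝 z] g) (a : R2) : D a f z = D a g z :=
    (D_eventually h a).eq_of_nhds

theorem bend_congr (h : f =ᶠ[𝓝 z] g) : bendSq f z = bendSq g z := by
  simp only [bendSq, sff_congr h]

theorem sffSq_congr (h : f =ᶠ[𝓝 z] g) : sffSq f z = sffSq g z := by
  simp only [sffSq, sff_congr h]

theorem sffSq_nonneg (f : R2 → V4) (z : R2) : 0 ≤ sffSq f z := by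
  have h1 := Legal.ip_self_nonneg (sff f z (pt 1 0) (pt 1 0))
  have h2 := Legal.ip_self_nonneg (sff f z (pt 1 0) (pt 0 1))
  have h3 := Legal.ip_self_nonneg (sff f z (pt 0 1) (pt 0 1))
  simp only [sffSq]
  positivity

end local_

theorem Bd.mono {F : Type} [NormedAddCommGroup F] [NormedSpace ℝ F] {S : Set R2} {C C' : ℕ → ℝ}
    {K K' : ℝ} {f : R2 → F} (h : Bd S C K f) (hC : ∀ i, |C i| ≤ C' i) (hK : 1 ≤ K)
    (hK' : K ≤ K') : Bd S C' K' f := fun i z hz =>
  (h i z hz).trans (mul_le_mul ((le_abs_self _).trans (hC i))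
    (pow_le_pow_left₀ (zero_le_one.trans hK) hK' i) (by positivity)
    ((abs_nonneg _).trans (hC i)))

theorem low_mono {c c' K K' v : ℝ} (h : 1 ≤ c * K * v) (hv : 0 ≤ v) (hK : 0 ≤ K) (hK' : K ≤ K')
    (hc : |c| ≤ c') : 1 ≤ c' * K' * v :=
  h.trans (mul_le_mul_of_nonneg_right (mul_le_mul ((le_abs_self c).trans hc) hK' hK
    ((abs_nonneg c).trans hc)) hv)

theorem low_scale {C' b q K v : ℝ} (h : 1 ≤ C' * K * v) (hb : 1 ≤ b * q) :
    1 ≤ b * C' * K * (q * v) := by
  nlinarith [mul_le_mul hb h zero_le_one (zero_le_one.trans hb)]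

variable {M : Type} [TopologicalSpace M] [ChartedSpace R2 M] [T2Space M]

theorem exists_inv_bound {T : Set R2} (hT : IsCompact T) {q : R2 → ℝ} (hq : ContinuousOn q T)
    (hp : ∀ z ∈ T, 0 < q z) : ∃ b, 0 ≤ b ∧ ∀ z ∈ T, 1 ≤ b * q z := by
  obtain ⟨b, hb⟩ := hT.exists_bound_of_continuousOn (hq.inv₀ fun z hz => (hp z hz).ne')
  refine ⟨|b|, abs_nonneg b, fun z hz => ?_⟩
  have h := ((le_abs_self _).trans (hb z hz)).trans (le_abs_self b)
  have hq0 := (hp z hz).ne'
  simpa [hq0] using mul_le_mul_of_nonneg_right h (hp z hz).le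

variable (c e : Disc M)

omit [T2Space M] in
theorem continuousOn_trans_deriv (v : R2) :
    ContinuousOn (fun z => fderiv ℝ (c.trans e) z v) (c.ov e) :=
  ((c.trans_smooth e).continuousOn_fderiv_of_isOpen (c.isOpen_ov e) (by simp)).clm_apply
    continuousOn_const

theorem bd_paste (C C' : ℕ → ℝ) : ∃ C'' : ℕ → ℝ, ∀ (X : M → V4) (Y : R2 → V4) (K : ℝ), 1 ≤ K →
    ContDiffOn ℝ ∞ Y (ball 0 3) → (∀ z ∈ ball (0 : R2) 3, z ∉ c.S → Y z = X (c.par z)) →
    Bd e.S C K (fun z => X (e.par z)) → Bd c.S C' K Y →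
    Bd e.S C'' K (fun z => paste c X Y (e.par z)) := by
  obtain ⟨C1, hC1, hb⟩ := Bd.comp_fixed (F := V4) (c.isOpen_ov e) (c.trans_smooth e)
    (c.hit_compact e) (c.hit_sub e) C'
  refine ⟨fun i => max (|C i|) (C1 i), fun X Y K hK hYs hY hX hYb i z hz => ?_⟩
  by_cases hp : e.par z ∈ c.par '' c.S
  · have hh : z ∈ c.hit e := ⟨hz, hp⟩
    rw [((paste_on c e (X := X) (Y := Y) (c.hit_sub e hh)).iteratedFDeriv ℝ i).eq_of_nhds]
    have hY' : Bd c.S (fun i => C' i * 1) K Y := by simpa using hYb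
    refine (hb (ball 0 3) c.S Y 1 K isOpen_ball c.S_sub hYs zero_le_one hK hY' z hh
      (c.trans_hit e hh) i).trans ?_
    rw [mul_one]
    exact mul_le_mul_of_nonneg_right (le_max_right _ _) (by positivity)
  · rw [((paste_eventually_off c e hY (e.S_sub hz) hp).iteratedFDeriv ℝ i).eq_of_nhds]
    exact (hX i z hz).trans (mul_le_mul_of_nonneg_right
      ((le_abs_self _).trans (le_max_left _ _)) (by positivity))

theorem area_bend_paste (hd : ∀ z ∈ c.ov e, fderiv ℝ (c.trans e) z (pt 0 1) 0 = 0) :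
    (∀ (X : M → V4) (Y : R2 → V4), ContDiffOn ℝ ∞ Y (ball 0 3) → ∀ z ∈ c.ov e,
      0 < area Y (c.trans e z) → 0 < bendSq Y (c.trans e z) →
      0 < area (fun w => paste c X Y (e.par w)) z ∧
        0 < bendSq (fun w => paste c X Y (e.par w)) z) ∧
    ∀ C' : ℝ, ∃ B : ℝ, ∀ (X : M → V4) (Y : R2 → V4) (K : ℝ),
      ContDiffOn ℝ ∞ Y (ball 0 3) → ∀ z ∈ c.hit e, 0 < area Y (c.trans e z) →
      1 ≤ C' * K * area Y (c.trans e z) → 1 ≤ C' * K * bendSq Y (c.trans e z) →
      1 ≤ B * C' * K * area (fun w => paste c X Y (e.par w)) z ∧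
        1 ≤ B * C' * K * bendSq (fun w => paste c X Y (e.par w)) z := by
  set m : R2 → ℝ := fun z => fderiv ℝ (c.trans e) z (pt 0 1) 1 with hm
  set q : R2 → ℝ := fun z => det2 (fderiv ℝ (c.trans e) z) with hq
  have hm0 : ∀ z ∈ c.ov e, m z ≠ 0 := fun z hz h0 => by
    have := c.det_ne e hz
    simp only [det2, hd z hz, mul_zero, sub_zero] at this
    exact this (by rw [show fderiv ℝ (c.trans e) z (pt 0 1) 1 = 0 from h0, mul_zero])
  have formula : ∀ (X : M → V4) (Y : R2 → V4), ContDiffOn ℝ ∞ Y (ball 0 3) → ∀ z ∈ c.ov e,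
      area (fun w => paste c X Y (e.par w)) z = q z ^ 2 * area Y (c.trans e z) ∧
      (area Y (c.trans e z) ≠ 0 → bendSq (fun w => paste c X Y (e.par w)) z =
        m z ^ 4 * bendSq Y (c.trans e z)) := fun X Y hYs z hz => by
    have hYc : ContDiffAt ℝ 2 Y (c.trans e z) :=
      (hYs.contDiffAt (isOpen_ball.mem_nhds (c.trans_mem e hz))).of_le (by norm_cast)
    have hτ : ContDiffAt ℝ 2 (c.trans e) z := (c.contDiffAt_trans e hz).of_le (by norm_cast)
    have he := paste_on c e (X := X) (Y := Y) hz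
    exact ⟨(area_congr he).trans
        (area_comp (hYc.differentiableAt (by norm_num)) (hτ.differentiableAt (by norm_num))),
      fun hA => (bend_congr he).trans (bend_comp hYc hτ hA (c.det_ne e hz) (hd z hz))⟩
  refine ⟨fun X Y hYs z hz ha hb => ?_, fun C' => ?_⟩
  · obtain ⟨h1, h2⟩ := formula X Y hYs z hz
    rw [h1, h2 ha.ne']
    have := c.det_ne e hz
    have := hm0 z hz
    refine ⟨mul_pos (by positivity) ha, mul_pos ?_ hb⟩
    rw [show m z ^ 4 = (m z ^ 2) ^ 2 by ring]; positivity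
  · have hcm : ContinuousOn m (c.hit e) :=
      ((EuclideanSpace.proj (𝕜 := ℝ) (1 : Fin 2)).continuous.comp_continuousOn
        (continuousOn_trans_deriv c e (pt 0 1))).mono (c.hit_sub e)
    have hc' : ∀ (v : R2) (i : Fin 2), ContinuousOn (fun z => fderiv ℝ (c.trans e) z v i) (c.ov e) :=
      fun v i => (EuclideanSpace.proj (𝕜 := ℝ) i).continuous.comp_continuousOn
        (continuousOn_trans_deriv c e v)
    have hcq : ContinuousOn q (c.hit e) :=
      (((hc' (pt 1 0) 0).mul (hc' (pt 0 1) 1)).sub ((hc' (pt 1 0) 1).mul (hc' (pt 0 1) 0))).mono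
        (c.hit_sub e)
    obtain ⟨b1, hb10, hb1⟩ := exists_inv_bound (q := fun z => q z ^ 2) (c.hit_compact e)
        (hcq.pow 2) fun z hz => by
      have hne : q z ≠ 0 := c.det_ne e (c.hit_sub e hz)
      positivity
    obtain ⟨b2, hb20, hb2⟩ := exists_inv_bound (q := fun z => m z ^ 4) (c.hit_compact e)
        (hcm.pow 4) fun z hz => by
      have := hm0 z (c.hit_sub e hz)
      rw [show m z ^ 4 = (m z ^ 2) ^ 2 by ring]; positivity
    refine ⟨b1 + b2, fun X Y K hYs z hz ha h1 h2 => ?_⟩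
    obtain ⟨f1, f2⟩ := formula X Y hYs z (c.hit_sub e hz)
    rw [f1, f2 ha.ne']
    have hb0 : (0 : ℝ) ≤ q z ^ 2 := sq_nonneg _
    have hm4 : (0 : ℝ) ≤ m z ^ 4 := by rw [show m z ^ 4 = (m z ^ 2) ^ 2 by ring]; positivity
    exact ⟨low_scale h1 ((hb1 z hz).trans (mul_le_mul_of_nonneg_right (by linarith) hb0)),
      low_scale h2 ((hb2 z hz).trans (mul_le_mul_of_nonneg_right (by linarith) hm4))⟩

theorem sec_paste (C' : ℝ) : ∃ B : ℝ, ∀ (X : M → V4) (Y : R2 → V4) (K : ℝ),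
    ContDiffOn ℝ ∞ Y (ball 0 3) → 0 ≤ C' * K → ∀ z ∈ c.hit e, 0 < area Y (c.trans e z) →
    1 ≤ C' * K * bendSq Y (c.trans e z) →
    1 ≤ B * C' * K * sffSq (fun w => paste c X Y (e.par w)) z := by
  have hmem : ∀ z ∈ c.ov e, c.trans e z ∈ e.ov c := fun z hz =>
    ⟨c.trans_mem e hz, by
      show c.par (c.inv (e.par z)) ∈ e.src
      rw [c.par_inv _ hz.2]; exact e.par_mem hz.1⟩
  set a : R2 → R2 := fun z => fderiv ℝ (e.trans c) (c.trans e z) (pt 0 1) with ha_def
  have hca : ContinuousOn a (c.hit e) := (continuousOn_trans_deriv e c (pt 0 1)).comp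
    ((c.trans_smooth e).continuousOn.mono (c.hit_sub e)) fun z hz => hmem z (c.hit_sub e hz)
  have hq : ContinuousOn (fun z => (a z 0 ^ 2 + a z 1 ^ 2) ^ 2) (c.hit e) :=
    ((((EuclideanSpace.proj (𝕜 := ℝ) (0 : Fin 2)).continuous.comp_continuousOn hca).pow 2).add
      (((EuclideanSpace.proj (𝕜 := ℝ) (1 : Fin 2)).continuous.comp_continuousOn hca).pow 2)).pow 2
  obtain ⟨b, hb⟩ := (c.hit_compact e).exists_bound_of_continuousOn hq
  refine ⟨|b|, fun X Y K hYs hCK z hz hA h2 => ?_⟩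
  have hov := c.hit_sub e hz
  have hYc : ContDiffAt ℝ 2 Y (c.trans e z) :=
    (hYs.contDiffAt (isOpen_ball.mem_nhds (c.trans_mem e hov))).of_le (by norm_cast)
  have hτ : ContDiffAt ℝ 2 (c.trans e) z := (c.contDiffAt_trans e hov).of_le (by norm_cast)
  have hback : fderiv ℝ (c.trans e) z (a z) = pt 0 1 := by
    have h := e.fderiv_trans_inv c (hmem z hov) (pt 0 1)
    have hzz : e.trans c (c.trans e z) = z := by
      show e.inv (c.par (c.inv (e.par z))) = z
      rw [c.par_inv _ hov.2, e.inv_par _ hov.1]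
    rw [hzz] at h
    exact h
  rw [sffSq_congr (paste_on c e (X := X) (Y := Y) hov)]
  have h3 := bend_le_sffSq (X := Y ∘ c.trans e) (z := z) (hYc.comp z hτ) (a z)
  rw [sff_comp hYc hτ hA.ne' (c.det_ne e hov), hback] at h3
  calc (1 : ℝ) ≤ C' * K * bendSq Y (c.trans e z) := h2
    _ ≤ C' * K * ((a z 0 ^ 2 + a z 1 ^ 2) ^ 2 * sffSq (Y ∘ c.trans e) z) :=
        mul_le_mul_of_nonneg_left h3 hCK
    _ ≤ C' * K * (|b| * sffSq (Y ∘ c.trans e) z) :=
        mul_le_mul_of_nonneg_left (mul_le_mul_of_nonneg_right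
          (((le_abs_self _).trans (hb z hz)).trans (le_abs_self b)) (sffSq_nonneg _ _)) hCK
    _ = _ := by ring

end Vale.Agent.P205
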