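import Vale.Agent.P205.Assembly.Transfer

/-!
The deficit is carried disc by disc: one application of the three waves per disc of the palette.
-/

noncomputable section

open Set Metric Filter Finset
open scoped ContDiff Manifold Topology

namespace Vale.Agent.P205

open Wave (V4 ip D gram2)

variable {M : Type} [TopologicalSpace M] [ChartedSpace R2 M]

theorem contDiffOn_met {U : Set R2} (hU : IsOpen U) {f : R2 → V4} (hf : ContDiffOn ℝ ∞ f U) :
    ContDiffOn ℝ ∞ (met f) U := by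
  have h1 := Wave.contDiffOn_D hU hf (pt 1 0)
  have h2 := Wave.contDiffOn_D hU hf (pt 0 1)
  refine contDiffOn_pi.2 fun i => ?_
  fin_cases i
  · exact Wave.contDiffOn_ip h1 h1
  · exact Wave.contDiffOn_ip h1 h2
  · exact Wave.contDiffOn_ip h2 h2

theorem Flat.mono {S : Set R2} {C : ℕ → ℕ → ℝ} {χ : R2 → ℝ} (h : Flat S C 1 χ) {K : ℝ}
    (hK : 1 ≤ K) : Flat S (fun i d => |C i d|) K χ := fun z hz => by
  refine ⟨(h z hz).1, fun i d => ((h z hz).2 i d).trans ?_⟩
  refine mul_le_mul_of_nonneg_right ?_ (pow_nonneg (h z hz).1 d)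
  rw [one_pow, mul_one]
  refine (le_abs_self _).trans ?_
  rw [abs_pow]
  exact pow_le_pow_left₀ (abs_nonneg _)
    (le_mul_of_one_le_right (abs_nonneg _) (one_le_pow₀ hK)) _

theorem mfd_par (d : Disc M) {z : R2} (hz : z ∈ ball (0 : R2) 3) :
    MDifferentiableAt 𝓘(ℝ, R2) 𝓘(ℝ, R2) d.par z :=
  (d.par_smooth.contMDiffAt (isOpen_ball.mem_nhds hz)).mdifferentiableAt (by simp)

theorem read_smooth (d : Disc M) {X : M → V4} (hX : ContMDiff 𝓘(ℝ, R2) 𝓘(ℝ, V4) ∞ X) :
    ContDiffOn ℝ ∞ (fun z => X (d.par z)) (ball 0 3) :=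
  (hX.comp_contMDiffOn d.par_smooth).contDiffOn

open Classical in
/-- The map changed in one disc. -/
def paste (d : Disc M) (X : M → V4) (Y : R2 → V4) (p : M) : V4 :=
  if p ∈ d.src then Y (d.inv p) else X p

section paste

variable (d e : Disc M) {X : M → V4} {Y : R2 → V4}
  (hY : ∀ z ∈ ball (0 : R2) 3, z ∉ d.S → Y z = X (d.par z))

include hY in
theorem paste_off {p : M} (hp : p ∉ d.par '' d.S) : paste d X Y p = X p := by
  unfold paste
  split_ifs with h
  · rw [hY _ (d.inv_mem h) fun hS => hp ⟨_, hS, d.par_inv p h⟩, d.par_inv p h]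
  · rfl

theorem paste_on {z : R2} (hz : z ∈ d.ov e) :
    (fun w => paste d X Y (e.par w)) =ᶠ[𝓝 z] Y ∘ d.trans e := by
  filter_upwards [(d.isOpen_ov e).mem_nhds hz] with w hw
  have h2 : e.par w ∈ d.src := hw.2
  simp only [paste, Disc.trans, Function.comp_apply]
  rw [if_pos h2]

include hY in
theorem paste_eventually_off [T2Space M] {z : R2} (hz : z ∈ ball (0 : R2) 3)
    (hp : e.par z ∉ d.par '' d.S) :
    (fun w => paste d X Y (e.par w)) =ᶠ[𝓝 z] fun w => X (e.par w) := by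
  have hc : ContinuousAt e.par z :=
    (e.par_smooth.contMDiffAt (isOpen_ball.mem_nhds hz)).continuousAt
  filter_upwards [hc.preimage_mem_nhds (d.image_compact.isClosed.isOpen_compl.mem_nhds hp)]
    with w hw using paste_off d hY hw

include hY in
theorem paste_smooth [T2Space M] (hX : ContMDiff 𝓘(ℝ, R2) 𝓘(ℝ, V4) ∞ X)
    (hYs : ContDiffOn ℝ ∞ Y (ball 0 3)) :
    ContMDiff 𝓘(ℝ, R2) 𝓘(ℝ, V4) ∞ (paste d X Y) := by
  intro p
  by_cases hp : p ∈ d.src
  · have h1 : ContMDiffAt 𝓘(ℝ, R2) 𝓘(ℝ, R2) ∞ d.inv p :=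
      d.inv_smooth.contMDiffAt (d.src_open.mem_nhds hp)
    have h2 : ContMDiffAt 𝓘(ℝ, R2) 𝓘(ℝ, V4) ∞ Y (d.inv p) :=
      (hYs.contDiffAt (isOpen_ball.mem_nhds (d.inv_mem hp))).contMDiffAt
    refine (h2.comp p h1).congr_of_eventuallyEq ?_
    filter_upwards [d.src_open.mem_nhds hp] with q hq
    simp only [paste, Function.comp_apply]
    rw [if_pos hq]
  · have hn : p ∉ d.par '' d.S := fun ⟨w, hw, hwp⟩ => hp (hwp ▸ d.par_mem (d.S_sub hw))
    refine (hX p).congr_of_eventuallyEq ?_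
    filter_upwards [d.image_compact.isClosed.isOpen_compl.mem_nhds hn] with q hq
      using paste_off d hY hq

end paste

variable {h : M → ℝ} {H : MForm M} {χ : M → ℝ}

namespace Palette

variable (Q : Palette h H χ)

/-- The share of the first `k` discs, as a multiple of `χ² • H`. -/
def part (k : ℕ) (p : M) : ℝ := ∑ c with (c : Fin Q.n).val < k, Q.share c p ^ 2

theorem part_succ {k : ℕ} (hk : k < Q.n) (p : M) :
    Q.part (k + 1) p = Q.part k p + Q.share ⟨k, hk⟩ p ^ 2 := by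
  unfold part
  have e : Finset.univ.filter (fun c : Fin Q.n => c.val < k + 1) =
      insert ⟨k, hk⟩ (Finset.univ.filter fun c : Fin Q.n => c.val < k) := by
    ext c
    simp only [Finset.mem_filter, Finset.mem_univ, true_and, Finset.mem_insert, Fin.ext_iff]
    omega
  rw [e, Finset.sum_insert (by simp), add_comm]

theorem part_full (p : M) : Q.part Q.n p = χ p ^ 2 := by
  rw [← Q.share_sum p, part, Finset.filter_true_of_mem fun c _ => c.isLt]

theorem part_zero (p : M) : Q.part 0 p = 0 := by simp [part]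

theorem trans_axis (c c' : Fin Q.n) {z : R2} (hz : z ∈ (Q.disc c).ov (Q.disc c')) :
    fderiv ℝ ((Q.disc c).trans (Q.disc c')) z (pt 0 1) 0 = 0 := by
  set τ := (Q.disc c).trans (Q.disc c')
  have hd := (((Q.disc c).contDiffAt_trans _ hz).differentiableAt (by simp)).hasFDerivAt
  let P : R2 →L[ℝ] ℝ := EuclideanSpace.proj (0 : Fin 2)
  have h1 : HasFDerivAt (fun w => Q.h0 c + Q.slope c * P (τ w))
      (Q.slope c • P.comp (fderiv ℝ τ z)) z :=
    ((P.hasFDerivAt.comp z hd).const_mul (Q.slope c)).const_add _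
  have h2 : HasFDerivAt (fun w => Q.h0 c' + Q.slope c' * P w) (Q.slope c' • P) z :=
    (P.hasFDerivAt.const_mul (Q.slope c')).const_add _
  have he : (fun w => Q.h0 c + Q.slope c * P (τ w)) =ᶠ[𝓝 z]
      fun w => Q.h0 c' + Q.slope c' * P w := by
    filter_upwards [((Q.disc c).isOpen_ov _).mem_nhds hz] with w hw
    have e1 := Q.height c _ ((Q.disc c).trans_mem _ hw)
    have e2 := Q.height c' w hw.1
    rw [Disc.trans, (Q.disc c).par_inv _ hw.2, e2] at e1
    exact e1.symm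
  have e := congrArg (fun L : R2 →L[ℝ] ℝ => L (pt 0 1))
    ((h1.congr_of_eventuallyEq he.symm).unique h2)
  simp [P, pt, Q.slope_ne c] at e
  exact e

end Palette

/-- The residual after the first `k` discs, in the disc `e`. -/
def resid (Q : Palette h H χ) (Z : M → V4) (k : ℕ) (X : M → V4) (e : Disc M) (z : R2) : Sym2 :=
  met (fun w => X (e.par w)) z - met (fun w => Z (e.par w)) z -
    Q.part k (e.par z) • chartForm H e.par z

/-- The state after the first `k` discs. -/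
structure St (Q : Palette h H χ) (𝒜 : Iter.Atlas (E := R2) (I := 𝓘(ℝ, R2)) (M := M)) (Z : M → V4)
    (k : ℕ) (C : ℕ → ℝ) (ε K : ℝ) (X : M → V4) : Prop where
  smooth : ContMDiff 𝓘(ℝ, R2) 𝓘(ℝ, V4) ∞ X
  bdP : ∀ c, Bd (Q.disc c).S C K fun z => X ((Q.disc c).par z)
  bdA : ∀ j, Bd (Disc.ofAtlas 𝒜 j).S C K fun z => X ((Disc.ofAtlas 𝒜 j).par z)
  low : ∀ c, ∀ z ∈ (Q.disc c).S, 1 ≤ C 0 * K * area (fun w => X ((Q.disc c).par w)) z ∧
    1 ≤ C 0 * K * bendSq (fun w => X ((Q.disc c).par w)) z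
  pos : ∀ c, ∀ z ∈ ball (0 : R2) 3, 0 < area (fun w => X ((Q.disc c).par w)) z ∧
    0 < bendSq (fun w => X ((Q.disc c).par w)) z
  sec : ∀ j, ∀ z ∈ (Disc.ofAtlas 𝒜 j).S,
    1 ≤ C 0 * K * sffSq (fun w => X ((Disc.ofAtlas 𝒜 j).par w)) z
  resSmooth : ∀ j, ContDiffOn ℝ ∞ (resid Q Z k X (Disc.ofAtlas 𝒜 j)) (ball 0 3)
  res : ∀ j, Bd (Disc.ofAtlas 𝒜 j).S (fun i => C i * ε) K (resid Q Z k X (Disc.ofAtlas 𝒜 j))

end Vale.Agent.P205
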