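import Vale.Agent.P205.Assembly.Compose
import Vale.Agent.P205.Assembly.Colours
import Vale.Agent.P205.Assembly.Base.Global
import Vale.Agent.P205.Assembly.Base.Local
import Vale.Agent.P205.Assembly.Patch.Main
import Vale.Agent.P205.Global.R3
import Vale.Agent.P205.Iter.Exact

/-!
Every closed surface with a smooth metric is isometrically immersed in four-space: composition
with the palette, the base construction and the immersion in three-space.
-/

noncomputable section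

open Set Metric
open scoped ContDiff Manifold Topology

namespace Vale.Agent.P205

variable {M : Type} [TopologicalSpace M] [ChartedSpace R2 M] [IsManifold 𝓘(ℝ, R2) ∞ M]
  [CompactSpace M] [T2Space M]

/-- The composition of all the global modules. -/
theorem surface_of_local (hT : TrioProp)
    (hL : Base.LocalProp)
    (g : Bundle.ContMDiffRiemannianMetric 𝓘(ℝ, R2) ∞ R2
      (fun p : M => TangentSpace 𝓘(ℝ, R2) p)) :
    ∃ F : M → EuclideanSpace ℝ (Fin 4),
      ContMDiff 𝓘(ℝ, R2) 𝓘(ℝ, EuclideanSpace ℝ (Fin 4)) ∞ F ∧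
      ∀ p (v w : TangentSpace 𝓘(ℝ, R2) p),
        inner ℝ
          (NormedSpace.fromTangentSpace (F p)
            (mfderiv 𝓘(ℝ, R2) 𝓘(ℝ, EuclideanSpace ℝ (Fin 4)) F p v))
          (NormedSpace.fromTangentSpace (F p)
            (mfderiv 𝓘(ℝ, R2) 𝓘(ℝ, EuclideanSpace ℝ (Fin 4)) F p w)) = g.inner p v w := by
  obtain ⟨f, hf, hfi⟩ := Global.exists_immersion_R3 (M := M)
  exact exists_isometric hT (fun 𝒜 _ hA => Iter.exact_immersion hT 𝒜 hA)
    (fun 𝒜 G P hs hp hG => Base.base_of_local hL 𝒜 G hs hp hG f hf hfi P)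
    (fun 𝒜 h H χ hh hc hs hp hH hχ _ hflat => exists_palette 𝒜 h hh χ hχ hc H hs hp hH hflat) g

/-- The composition, from the three waves and the patch. -/
theorem surface_of_patch (hT : TrioProp)
    (hP : ∀ G : R2 → Sym2, ContDiffOn ℝ ∞ G (ball 0 1) → G 0 = ![1, 0, 1] →
      ∀ ρ ε : ℝ, 0 < ρ → ρ ≤ 1 → 0 < ε → PatchProp G ρ ε)
    (g : Bundle.ContMDiffRiemannianMetric 𝓘(ℝ, R2) ∞ R2
      (fun p : M => TangentSpace 𝓘(ℝ, R2) p)) :
    ∃ F : M → EuclideanSpace ℝ (Fin 4),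
      ContMDiff 𝓘(ℝ, R2) 𝓘(ℝ, EuclideanSpace ℝ (Fin 4)) ∞ F ∧
      ∀ p (v w : TangentSpace 𝓘(ℝ, R2) p),
        inner ℝ
          (NormedSpace.fromTangentSpace (F p)
            (mfderiv 𝓘(ℝ, R2) 𝓘(ℝ, EuclideanSpace ℝ (Fin 4)) F p v))
          (NormedSpace.fromTangentSpace (F p)
            (mfderiv 𝓘(ℝ, R2) 𝓘(ℝ, EuclideanSpace ℝ (Fin 4)) F p w)) = g.inner p v w :=
  surface_of_local hT (Base.base_local hP) g

/-- The composition, from the three waves alone. -/
theorem surface_of_trio (hT : TrioProp)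
    (g : Bundle.ContMDiffRiemannianMetric 𝓘(ℝ, R2) ∞ R2
      (fun p : M => TangentSpace 𝓘(ℝ, R2) p)) :
    ∃ F : M → EuclideanSpace ℝ (Fin 4),
      ContMDiff 𝓘(ℝ, R2) 𝓘(ℝ, EuclideanSpace ℝ (Fin 4)) ∞ F ∧
      ∀ p (v w : TangentSpace 𝓘(ℝ, R2) p),
        inner ℝ
          (NormedSpace.fromTangentSpace (F p)
            (mfderiv 𝓘(ℝ, R2) 𝓘(ℝ, EuclideanSpace ℝ (Fin 4)) F p v))
          (NormedSpace.fromTangentSpace (F p)
            (mfderiv 𝓘(ℝ, R2) 𝓘(ℝ, EuclideanSpace ℝ (Fin 4)) F p w)) = g.inner p v w :=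
  surface_of_patch hT (exact_patch hT) g

end Vale.Agent.P205
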