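import Vale.Agent.P205.Assembly.Palette
import Vale.Agent.P205.Assembly.Change

/-!
Passing bounds from one disc to another: compositions with the transition and pull back of
tensors.
-/

noncomputable section

open Set Metric Filter Finset
open scoped ContDiff Manifold Topology

namespace Vale.Agent.P205

open Wave (V4)

section calculus

variable {F G : Type} [NormedAddCommGroup F] [NormedSpace ℝ F] [NormedAddCommGroup G]
  [NormedSpace ℝ G]

theorem exists_derivBound {U : Set R2} (hU : IsOpen U) {f : R2 → F} (hf : ContDiffOn ℝ ∞ f U)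
    {K : Set R2} (hK : IsCompact K) (hKU : K ⊆ U) :
    ∃ B : ℕ → ℝ, (∀ i, 1 ≤ B i) ∧ ∀ l i, l ≤ i → ∀ z ∈ K, ‖iteratedFDeriv ℝ l f z‖ ≤ B i := by
  have hb : ∀ l : ℕ, ∃ b, ∀ z ∈ K, ‖iteratedFDerivWithin ℝ l f U z‖ ≤ b := fun l =>
    hK.exists_bound_of_continuousOn ((hf.continuousOn_iteratedFDerivWithin
      (by exact WithTop.coe_le_coe.2 le_top) hU.uniqueDiffOn).mono hKU)
  choose b hb using hb
  refine ⟨fun i => 1 + ∑ l ∈ range (i + 1), |b l|,
    fun i => le_add_of_nonneg_right (sum_nonneg fun _ _ => abs_nonneg _), fun l i hl z hz => ?_⟩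
  rw [← iteratedFDerivWithin_of_isOpen l hU (hKU hz)]
  refine ((hb l z hz).trans (le_abs_self _)).trans (le_add_of_nonneg_of_le zero_le_one ?_)
  exact single_le_sum (f := fun m => |b m|) (fun m _ => abs_nonneg _)
    (Finset.mem_range.2 (by omega))

/-- Bounds on a composition with a fixed map on a compact set. -/
theorem Bd.comp_fixed {U : Set R2} (hU : IsOpen U) {τ : R2 → R2} (hτ : ContDiffOn ℝ ∞ τ U)
    {T : Set R2} (hT : IsCompact T) (hTU : T ⊆ U) (C : ℕ → ℝ) :
    ∃ C' : ℕ → ℝ, (∀ i, 0 ≤ C' i) ∧ ∀ (V S : Set R2) (g : R2 → F) (a K : ℝ), IsOpen V → S ⊆ V →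
      ContDiffOn ℝ ∞ g V → 0 ≤ a → 1 ≤ K → Bd S (fun i => C i * a) K g →
      ∀ z ∈ T, τ z ∈ S → ∀ i : ℕ, ‖iteratedFDeriv ℝ i (g ∘ τ) z‖ ≤ C' i * a * K ^ i := by
  obtain ⟨B, hB1, hB⟩ := exists_derivBound hU hτ hT hTU
  refine ⟨fun i => i.factorial * (∑ l ∈ range (i + 1), |C l|) * B i ^ i, fun i => ?_,
    fun V S g a K hV hSV hg ha hK hb z hz hzS i => ?_⟩
  · have := hB1 i
    positivity
  have hW : IsOpen (U ∩ τ ⁻¹' V) := hτ.continuousOn.isOpen_inter_preimage hU hV
  have hzW : z ∈ U ∩ τ ⁻¹' V := ⟨hTU hz, hSV hzS⟩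
  have h := norm_iteratedFDerivWithin_comp_le (𝕜 := ℝ) (g := g) (f := τ) (n := i)
    (s := U ∩ τ ⁻¹' V) (t := V) (x := z) (C := (∑ l ∈ range (i + 1), |C l|) * a * K ^ i)
    (D := B i) hg (hτ.mono inter_subset_left) (by exact WithTop.coe_le_coe.2 le_top)
    hV.uniqueDiffOn hW.uniqueDiffOn (fun y hy => hy.2) hzW (fun l hl => ?_) (fun l h1 hl => ?_)
  · rw [iteratedFDerivWithin_of_isOpen i hW hzW] at h
    refine h.trans (le_of_eq ?_)
    ring
  · rw [iteratedFDerivWithin_of_isOpen l hV (hSV hzS)]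
    refine (hb l _ hzS).trans ?_
    refine mul_le_mul ?_ (pow_le_pow_right₀ hK hl) (by positivity) ?_
    · refine mul_le_mul_of_nonneg_right ((le_abs_self _).trans ?_) ha
      exact single_le_sum (f := fun m => |C m|) (fun m _ => abs_nonneg _)
        (Finset.mem_range.2 (by omega))
    · exact mul_nonneg (sum_nonneg fun _ _ => abs_nonneg _) ha
  · rw [iteratedFDerivWithin_of_isOpen l hW hzW]
    exact (hB l i hl z hz).trans (le_self_pow₀ (hB1 i) (by omega))

/-- Bounds on a fixed field of linear maps applied to a function. -/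
theorem Bd.apply_fixed {U : Set R2} (hU : IsOpen U) {L : R2 → F →L[ℝ] G}
    (hL : ContDiffOn ℝ ∞ L U) {T : Set R2} (hT : IsCompact T) (hTU : T ⊆ U) (C : ℕ → ℝ) :
    ∃ C' : ℕ → ℝ, (∀ i, 0 ≤ C' i) ∧ ∀ (W : Set R2) (f : R2 → F) (a K : ℝ), IsOpen W →
      ContDiffOn ℝ ∞ f W → 0 ≤ a → 1 ≤ K → ∀ z ∈ T, z ∈ W →
      (∀ i : ℕ, ‖iteratedFDeriv ℝ i f z‖ ≤ C i * a * K ^ i) →
      ∀ i : ℕ, ‖iteratedFDeriv ℝ i (fun w => L w (f w)) z‖ ≤ C' i * a * K ^ i := by
  obtain ⟨B, hB1, hB⟩ := exists_derivBound hU hL hT hTU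
  refine ⟨fun i => ∑ l ∈ range (i + 1), (i.choose l : ℝ) * B i * |C (i - l)|, fun i => ?_,
    fun W f a K hW hf ha hK z hz hzW hb i => ?_⟩
  · have := hB1 i
    positivity
  have hUW := hU.inter hW
  have hzUW : z ∈ U ∩ W := ⟨hTU hz, hzW⟩
  have h := norm_iteratedFDerivWithin_clm_apply (hL.mono inter_subset_left)
    (hf.mono inter_subset_right) hUW.uniqueDiffOn hzUW (n := i)
    (by exact WithTop.coe_le_coe.2 le_top)
  rw [iteratedFDerivWithin_of_isOpen i hUW hzUW] at h
  refine h.trans ?_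
  rw [sum_mul, sum_mul]
  refine sum_le_sum fun l hl => ?_
  rw [iteratedFDerivWithin_of_isOpen l hUW hzUW, iteratedFDerivWithin_of_isOpen (i - l) hUW hzUW,
    mul_assoc _ (|C (i - l)|) a, mul_assoc _ (|C (i - l)| * a) (K ^ i)]
  refine mul_le_mul (mul_le_mul_of_nonneg_left
    (hB l i (Nat.lt_succ_iff.1 (Finset.mem_range.1 hl)) z hz) (Nat.cast_nonneg _)) ?_
    (norm_nonneg _) (mul_nonneg (Nat.cast_nonneg _) (zero_le_one.trans (hB1 i)))
  refine (hb (i - l)).trans ?_
  exact mul_le_mul (mul_le_mul_of_nonneg_right (le_abs_self _) ha)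
    (pow_le_pow_right₀ hK (Nat.sub_le i l)) (by positivity) (mul_nonneg (abs_nonneg _) ha)

end calculus

/-- The pull back as a field of linear maps. -/
def pullL : (R2 →L[ℝ] R2) → Sym2 →L[ℝ] Sym2 := fun L =>
  LinearMap.toContinuousLinearMap
    { toFun := pullSym L
      map_add' := fun S T => pullSym_add L S T
      map_smul' := fun r T => pullSym_smul L r T }

@[simp] theorem pullL_apply (L : R2 →L[ℝ] R2) (T : Sym2) : pullL L T = pullSym L T := rfl

theorem contDiff_pullL : ContDiff ℝ ∞ pullL := by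
  rw [contDiff_clm_apply_iff]
  intro T
  simp only [pullL_apply, pullSym]
  refine contDiff_pi.2 fun i => ?_
  have hc : ∀ (v : R2) (k : Fin 2), ContDiff ℝ ∞ fun L : R2 →L[ℝ] R2 => L v k := fun v k =>
    ((EuclideanSpace.proj k).comp (ContinuousLinearMap.apply ℝ R2 v)).contDiff
  fin_cases i <;> simp only [qf] <;> simp <;> fun_prop (disch := assumption)

variable {M : Type} [TopologicalSpace M] [ChartedSpace R2 M] (d e : Disc M)

/-- The transition from the disc `e` to the disc `d`. -/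
def Disc.trans (z : R2) : R2 := d.inv (e.par z)

/-- Its domain. -/
def Disc.ov : Set R2 := ball 0 3 ∩ e.par ⁻¹' d.src

theorem Disc.S_sub : d.S ⊆ ball 0 3 := closedBall_subset_ball d.r_lt

theorem Disc.S_compact : IsCompact d.S := isCompact_closedBall 0 d.r

theorem Disc.isOpen_ov : IsOpen (d.ov e) :=
  e.par_smooth.continuousOn.isOpen_inter_preimage isOpen_ball d.src_open

theorem Disc.trans_smooth : ContDiffOn ℝ ∞ (d.trans e) (d.ov e) :=
  (d.inv_smooth.comp (e.par_smooth.mono inter_subset_left) fun _ hy => hy.2).contDiffOn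

theorem Disc.trans_mem {z : R2} (hz : z ∈ d.ov e) : d.trans e z ∈ ball (0 : R2) 3 :=
  d.inv_mem hz.2

theorem Disc.par_eq {z : R2} (hz : z ∈ d.ov e) :
    e.par =ᶠ[𝓝 z] fun w => d.par (d.trans e w) := by
  filter_upwards [(d.isOpen_ov e).mem_nhds hz] with w hw
  exact (d.par_inv _ hw.2).symm

theorem Disc.contDiffAt_trans {z : R2} (hz : z ∈ d.ov e) : ContDiffAt ℝ ∞ (d.trans e) z :=
  (d.trans_smooth e).contDiffAt ((d.isOpen_ov e).mem_nhds hz)

theorem Disc.fderiv_trans_inv {z : R2} (hz : z ∈ d.ov e) (a : R2) :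
    fderiv ℝ (e.trans d) (d.trans e z) (fderiv ℝ (d.trans e) z a) = a := by
  have hy : d.trans e z ∈ e.ov d :=
    ⟨d.trans_mem e hz, by
      show d.par (d.inv (e.par z)) ∈ e.src
      rw [d.par_inv _ hz.2]; exact e.par_mem hz.1⟩
  have h1 := ((d.contDiffAt_trans e hz).differentiableAt (by simp)).hasFDerivAt
  have h2 := ((e.contDiffAt_trans d hy).differentiableAt (by simp)).hasFDerivAt
  have h3 : HasFDerivAt (fun w => e.trans d (d.trans e w)) (ContinuousLinearMap.id ℝ R2) z := by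
    refine (hasFDerivAt_id z).congr_of_eventuallyEq ?_
    filter_upwards [(d.isOpen_ov e).mem_nhds hz] with w hw
    show e.inv (d.par (d.inv (e.par w))) = w
    rw [d.par_inv _ hw.2, e.inv_par _ hw.1]
  exact congrArg (fun L : R2 →L[ℝ] R2 => L a) ((h2.comp z h1).unique h3)

theorem Disc.det_ne {z : R2} (hz : z ∈ d.ov e) : det2 (fderiv ℝ (d.trans e) z) ≠ 0 := by
  set L := fderiv ℝ (d.trans e) z
  have hinj : ∀ a, L a = 0 → a = 0 := fun a ha => by
    rw [← d.fderiv_trans_inv e hz a, ha, map_zero]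
  intro h
  set p := L (pt 1 0)
  set q := L (pt 0 1)
  have hd : p 0 * q 1 - p 1 * q 0 = 0 := h
  have h1 : L (q 1 • pt 1 0 + (-(p 1)) • pt 0 1) = 0 := by
    rw [map_add, map_smul, map_smul]
    ext i; fin_cases i <;> simp <;> linarith
  have h2 : L (q 0 • pt 1 0 + (-(p 0)) • pt 0 1) = 0 := by
    rw [map_add, map_smul, map_smul]
    ext i; fin_cases i <;> simp <;> linarith
  have e1 := hinj _ h1
  have e2 := hinj _ h2
  have c1 := congrArg (fun x : R2 => x 0) e1
  have c2 := congrArg (fun x : R2 => x 1) e1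
  have c3 := congrArg (fun x : R2 => x 0) e2
  have c4 := congrArg (fun x : R2 => x 1) e2
  simp [pt] at c1 c2 c3 c4
  have hp0 : p = 0 := by ext i; fin_cases i <;> simp [c2, c4]
  have := hinj _ hp0
  have := congrArg (fun x : R2 => x 0) this
  simp [pt] at this

/-- The points of one working disc lying over the other. -/
def Disc.hit : Set R2 := e.S ∩ e.par ⁻¹' (d.par '' d.S)

theorem Disc.hit_sub : d.hit e ⊆ d.ov e := by
  rintro z ⟨hz, w, hw, hwz⟩
  exact ⟨e.S_sub hz, by rw [Set.mem_preimage, ← hwz]; exact d.par_mem (d.S_sub hw)⟩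

theorem Disc.trans_hit {z : R2} (hz : z ∈ d.hit e) : d.trans e z ∈ d.S := by
  obtain ⟨-, w, hw, hwz⟩ := hz
  rwa [Disc.trans, ← hwz, d.inv_par w (d.S_sub hw)]

theorem Disc.image_compact : IsCompact (d.par '' d.S) :=
  d.S_compact.image_of_continuousOn (d.par_smooth.continuousOn.mono d.S_sub)

theorem Disc.hit_compact [T2Space M] : IsCompact (d.hit e) :=
  e.S_compact.of_isClosed_subset
    ((e.par_smooth.continuousOn.mono e.S_sub).preimage_isClosed_of_isClosed isClosed_closedBall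
      d.image_compact.isClosed) inter_subset_left

end Vale.Agent.P205
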